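import Crest.Agent.R32.Defs

/-! Row 32. An alternating form of bounded rank on `𝔽_p²` without zeros on distinct triples. -/

set_option autoImplicit false

namespace Crest.R32

open Finset Matrix

/-- `x ↦ x³ - x` is not injective (`0`, `1`), hence not surjective (`Finite.injective_iff_surjective`). -/
theorem exists_aniso (p : ℕ) [Fact p.Prime] :
    ∃ β : ZMod p, ∀ u v : ZMod p, u ^ 3 - u * v ^ 2 - β * v ^ 3 = 0 → u = 0 ∧ v = 0 := by
  have h1 : ¬ Function.Surjective fun x : ZMod p => x ^ 3 - x := by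
    rw [← Finite.injective_iff_surjective]
    intro h
    exact zero_ne_one (h (a₁ := 0) (a₂ := 1) (by simp))
  obtain ⟨β, hβ⟩ := not_forall.1 h1
  refine ⟨β, fun u v h => ?_⟩
  have hv : v = 0 := by
    by_contra hv
    refine hβ ⟨u / v, ?_⟩
    field_simp
    linear_combination h
  subst hv
  exact ⟨by simpa using h, rfl⟩

/-- `φ` = the ten monomials of degree `≤ 3` in `a`, `ψ` = their coefficients; `simp [Fin.sum_univ_succ]; ring`. -/
theorem nu_rank {R : Type} [CommRing R] (β : R) :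
    ∃ φ ψ : Fin 10 → R × R → R, ∀ a b : R × R,
      (a.1 - b.1) ^ 3 - (a.1 - b.1) * (a.2 - b.2) ^ 2 - β * (a.2 - b.2) ^ 3 = ∑ i, φ i a * ψ i b := by
  refine ⟨fun i a => ![1, a.1, a.2, a.1 ^ 2, a.1 * a.2, a.2 ^ 2, a.1 ^ 3, a.1 ^ 2 * a.2,
      a.1 * a.2 ^ 2, a.2 ^ 3] i,
    fun i b => ![-b.1 ^ 3 + b.1 * b.2 ^ 2 + β * b.2 ^ 3, 3 * b.1 ^ 2 - b.2 ^ 2,
      -2 * b.1 * b.2 - 3 * β * b.2 ^ 2, -3 * b.1, 2 * b.2, b.1 + 3 * β * b.2, 1, 0, -1, -β] i,
    fun a b => ?_⟩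
  simp [Fin.sum_univ_succ]
  ring

theorem Alt_six (p : ℕ) [Fact p.Prime] (hp : 3 < p) : (6 : ZMod p) ≠ 0 := by
  intro h
  have h' : p ∣ 2 * 3 := (ZMod.natCast_eq_zero_iff 6 p).1 (by exact_mod_cast h)
  have hp' : p.Prime := Fact.out
  rcases hp'.dvd_mul.1 h' with h2 | h2
  · have := Nat.le_of_dvd (by norm_num) h2
    omega
  · have := Nat.le_of_dvd (by norm_num) h2
    omega

theorem Alt_core {R A ι κ : Type} [CommRing R] [Fintype ι] [Fintype κ] (e : ι × ι × ι ≃ κ)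
    (φ ψ : ι → A → R) (ν : A → A → R) (hν : ∀ a b, ν a b = ∑ i, φ i a * ψ i b)
    (hodd : ∀ a b, ν b a = -ν a b) :
    ∃ x y z : κ → A → R, ∀ a b c,
      ∑ r, det3 ![x r a, y r a, z r a] ![x r b, y r b, z r b] ![x r c, y r c, z r c] =
        6 * (ν a b * ν b c * ν c a) := by
  obtain ⟨x, y, z, hG⟩ : ∃ x y z : κ → A → R,
      ∀ a b c, ∑ r, x r a * y r b * z r c = ν a b * ν b c * ν c a := by
    refine ⟨fun r a => φ (e.symm r).1 a * ψ (e.symm r).2.2 a,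
      fun r a => ψ (e.symm r).1 a * φ (e.symm r).2.1 a,
      fun r a => ψ (e.symm r).2.1 a * φ (e.symm r).2.2 a, fun a b c => ?_⟩
    rw [← e.sum_comp, hν, hν, hν, mul_assoc, sum_mul_sum (f := fun i => φ i b * ψ i c),
      ← Fintype.sum_prod_type', sum_mul_sum, ← Fintype.sum_prod_type']
    refine sum_congr rfl fun r _ => ?_
    simp only [Equiv.symm_apply_apply]
    ring
  refine ⟨x, y, z, fun a b c => ?_⟩
  have h1 : ∀ r, det3 ![x r a, y r a, z r a] ![x r b, y r b, z r b] ![x r c, y r c, z r c] =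
      x r c * y r a * z r b - x r c * y r b * z r a + x r b * y r c * z r a -
        x r a * y r c * z r b + x r a * y r b * z r c - x r b * y r a * z r c := by
    intro r
    simp only [det3_def, Matrix.cons_val_zero, Matrix.cons_val_one, Matrix.cons_val]
    ring
  simp only [h1, sum_add_distrib, sum_sub_distrib, hG]
  rw [hodd a b, hodd b c, hodd c a]
  ring

theorem Alt_equiv : Nonempty (Fin 10 × Fin 10 × Fin 10 ≃ Fin 1000) :=
  ⟨Fintype.equivFinOfCardEq (by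
    rw [Fintype.card_prod, Fintype.card_prod, Fintype.card_fin])⟩

/-- With `ν(u) = u.1³ - u.1 u.2² - β u.2³` (odd, anisotropic) let `F a b c = ν(a-b) ν(b-c) ν(c-a)`.  By `nu_rank`,
`F a b c = ∑_{(i,j,k)} (φ i a ψ k a) (ψ i b φ j b) (ψ j c φ k c) = ∑_r x r a * y r b * z r c`
(index `Fin 10 × Fin 10 × Fin 10 ≃ Fin 1000`, `Fintype.equivFinOfCardEq`).  The sum of determinants is the alternating sum of `F` over the six
orders of `a, b, c`, which is `6 F a b c ≠ 0`. -/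
theorem exists_alt (p : ℕ) [Fact p.Prime] (hp : 3 < p) :
    ∃ x y z : Fin 1000 → ZMod p × ZMod p → ZMod p, ∀ a b c, a ≠ b → a ≠ c → b ≠ c →
      ∑ r, det3 ![x r a, y r a, z r a] ![x r b, y r b, z r b] ![x r c, y r c, z r c] ≠ 0 := by
  obtain ⟨β, hβ⟩ := exists_aniso p
  obtain ⟨φ, ψ, hν⟩ := nu_rank β
  let ν : ZMod p × ZMod p → ZMod p × ZMod p → ZMod p := fun a b =>
    (a.1 - b.1) ^ 3 - (a.1 - b.1) * (a.2 - b.2) ^ 2 - β * (a.2 - b.2) ^ 3
  have hν' : ∀ a b, ν a b = ∑ i, φ i a * ψ i b := hν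
  have hne : ∀ a b, a ≠ b → ν a b ≠ 0 := fun a b hab h => by
    obtain ⟨h1, h2⟩ := hβ _ _ h
    exact hab (Prod.ext (sub_eq_zero.1 h1) (sub_eq_zero.1 h2))
  have hodd : ∀ a b, ν b a = -ν a b := fun a b => by simp only [ν]; ring
  obtain ⟨e⟩ := Alt_equiv
  obtain ⟨x, y, z, h⟩ := Alt_core e φ ψ ν hν' hodd
  refine ⟨x, y, z, fun a b c hab hac hbc => ?_⟩
  rw [h]
  exact mul_ne_zero (Alt_six p hp)
    (mul_ne_zero (mul_ne_zero (hne _ _ hab) (hne _ _ hbc)) (hne _ _ hac.symm))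

end Crest.R32
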