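import Crest.Agent.R32.Defs

/-! Row 32. A cap in `𝔽_l³` and the Chinese-remainder lift. -/

set_option autoImplicit false

namespace Crest.R32

open Finset Matrix

/-- Points `(x, y, x² - β y²)` with `β` a non-square (`FiniteField.exists_nonsquare`), indexed through an injection
`ι ↪ ZMod l × ZMod l`.  If the cross product of `d = γ j - γ i` and `d' = γ k - γ i` vanishes then
`(d' 0, d' 1) = s (d 0, d 1)`, `d' 2 = s d 2`, which gives `(s² - s)(d 0 ^ 2 - β d 1 ^ 2) = 0`, so `s ∈ {0, 1}`. -/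
theorem exists_cap (l : ℕ) [Fact l.Prime] (hl : l ≠ 2) (ι : Type) [Fintype ι]
    (hι : Fintype.card ι ≤ l ^ 2) :
    ∃ γ : ι → V3 (ZMod l), ∀ i j k, i ≠ j → i ≠ k → j ≠ k → cr (γ j - γ i) (γ k - γ i) ≠ 0 := by
  classical
  have hchar : ringChar (ZMod l) ≠ 2 := by rw [ZMod.ringChar_zmod_n]; exact hl
  obtain ⟨β, hβ⟩ := FiniteField.exists_nonsquare hchar
  have haniso : ∀ a b : ZMod l, a ^ 2 - β * b ^ 2 = 0 → a = 0 ∧ b = 0 := by
    intro a b h
    by_cases hb : b = 0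
    · subst hb
      refine ⟨?_, rfl⟩
      have : a ^ 2 = 0 := by linear_combination h
      exact pow_eq_zero_iff (two_ne_zero) |>.1 this
    · exact absurd ⟨a / b, by field_simp; linear_combination -h⟩ hβ
  obtain ⟨P⟩ : Nonempty (ι ↪ ZMod l × ZMod l) := by
    apply Function.Embedding.nonempty_of_card_le
    rw [Fintype.card_prod, ZMod.card, ← sq]
    exact hι
  refine ⟨fun i => ![(P i).1, (P i).2, (P i).1 ^ 2 - β * (P i).2 ^ 2], ?_⟩
  intro i j k hij hik hjk h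
  rw [cr_eq_zero_iff] at h
  obtain ⟨h0, h1, h2⟩ := h
  simp only [Pi.sub_apply, Matrix.cons_val_zero, Matrix.cons_val_one, Matrix.cons_val] at h0 h1 h2
  set x := (P i).1 with hx
  set y := (P i).2 with hy
  obtain ⟨a, ha⟩ : ∃ a, (P j).1 = x + a := ⟨(P j).1 - x, by ring⟩
  obtain ⟨b, hb⟩ : ∃ b, (P j).2 = y + b := ⟨(P j).2 - y, by ring⟩
  obtain ⟨a', ha'⟩ : ∃ a, (P k).1 = x + a := ⟨(P k).1 - x, by ring⟩
  obtain ⟨b', hb'⟩ : ∃ b, (P k).2 = y + b := ⟨(P k).2 - y, by ring⟩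
  rw [ha, hb, ha', hb'] at h0 h1 h2
  have hQ : a ^ 2 - β * b ^ 2 ≠ 0 := by
    intro hq
    obtain ⟨e1, e2⟩ := haniso a b hq
    apply hij
    apply P.injective
    exact Prod.ext (by rw [ha, e1, add_zero]) (by rw [hb, e2, add_zero])
  have hQ' : a' ^ 2 - β * b' ^ 2 ≠ 0 := by
    intro hq
    obtain ⟨e1, e2⟩ := haniso a' b' hq
    apply hik
    apply P.injective
    exact Prod.ext (by rw [ha', e1, add_zero]) (by rw [hb', e2, add_zero])
  have e1 : b * (a' ^ 2 - β * b' ^ 2) = b' * (a ^ 2 - β * b ^ 2) := by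
    linear_combination h0 + 2 * x * h2
  have e2 : a * (a' ^ 2 - β * b' ^ 2) = a' * (a ^ 2 - β * b ^ 2) := by
    linear_combination -h1 + 2 * β * y * h2
  have e3 : a' ^ 2 - β * b' ^ 2 = a ^ 2 - β * b ^ 2 := by
    have : (a ^ 2 - β * b ^ 2) * (a' ^ 2 - β * b' ^ 2) *
        ((a' ^ 2 - β * b' ^ 2) - (a ^ 2 - β * b ^ 2)) = 0 := by
      linear_combination (a * (a' ^ 2 - β * b' ^ 2) + a' * (a ^ 2 - β * b ^ 2)) * e2
        - β * (b * (a' ^ 2 - β * b' ^ 2) + b' * (a ^ 2 - β * b ^ 2)) * e1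
    rcases mul_eq_zero.1 this with h | h
    · exact absurd h (mul_ne_zero hQ hQ')
    · exact sub_eq_zero.1 h
  rw [e3] at e1 e2
  apply hjk
  apply P.injective
  exact Prod.ext (by rw [ha, ha', mul_right_cancel₀ hQ e2]) (by rw [hb, hb', mul_right_cancel₀ hQ e1])

/-- coordinatewise: `Nat.chineseRemainder` of the two `val`s, reduced mod `q l`; add `q l` in the last coordinate. -/
theorem exists_lift (q l : ℕ) [Fact q.Prime] [Fact l.Prime] (h : q ≠ l) : Nonempty (Lift q l) := by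
  have hq : q.Prime := Fact.out
  have hl : l.Prime := Fact.out
  have hco : Nat.Coprime q l := (Nat.coprime_primes hq hl).2 h
  have key : ∀ (a : ZMod q) (b : ZMod l), ∃ n : ℕ, n < q * l ∧ (n : ZMod q) = a ∧ (n : ZMod l) = b := by
    intro a b
    refine ⟨Nat.chineseRemainder hco a.val b.val,
      Nat.chineseRemainder_lt_mul hco _ _ hq.ne_zero hl.ne_zero, ?_, ?_⟩
    · rw [(ZMod.natCast_eq_natCast_iff _ _ _).2 (Nat.chineseRemainder hco a.val b.val).2.1,
        ZMod.natCast_zmod_val]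
    · rw [(ZMod.natCast_eq_natCast_iff _ _ _).2 (Nat.chineseRemainder hco a.val b.val).2.2,
        ZMod.natCast_zmod_val]
  choose c hc hcq hcl using key
  have hc' : ∀ a b, (c a b : ℤ) < q * l := fun a b => by exact_mod_cast hc a b
  refine ⟨⟨fun a b => ![(c (a 0) (b 0) : ℤ), (c (a 1) (b 1) : ℤ), (c (a 2) (b 2) : ℤ) + q * l],
    fun a b => v3_ext ?_ ?_ ?_, fun a b => v3_ext ?_ ?_ ?_, fun a b => ?_, fun a b => ?_,
    fun a b => ?_⟩⟩
  · simp [red, hcq]
  · simp [red, hcq]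
  · simp [red, hcq]
  · simp [red, hcl]
  · simp [red, hcl]
  · simp [red, hcl]
  · exact ⟨Int.natCast_nonneg _, hc' _ _⟩
  · exact ⟨Int.natCast_nonneg _, hc' _ _⟩
  · have h1 := hc' (a 2) (b 2)
    have h2 := Int.natCast_nonneg (c (a 2) (b 2))
    change (q * l : ℤ) ≤ (c (a 2) (b 2) : ℤ) + q * l ∧ (c (a 2) (b 2) : ℤ) + q * l < 2 * (q * l)
    constructor <;> linarith

end Crest.R32
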