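import Crest.Agent.R32.Defs

/-! Row 32. The sum of `|κ|⁻³` over a union of residue classes. -/

set_option autoImplicit false

namespace Crest.R32

open Finset Matrix

/-- The map `κ ↦ (red q κ, fun i => (κ i + ρ) / q)` is injective, the second entry has coordinates in
`[0, 2ρ/q]`. -/
theorem card_box_res (q : ℕ) [NeZero q] (K : Finset (V3 (ZMod q))) (ρ : ℕ) :
    ((box ρ).filter fun κ => red q κ ∈ K).card ≤ K.card * (2 * ρ / q + 1) ^ 3 := by
  classical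
  have hq : (0 : ℤ) < q := by exact_mod_cast Nat.pos_of_ne_zero (NeZero.ne q)
  let T : Finset (V3 ℤ) := Fintype.piFinset fun _ => Finset.Icc (0 : ℤ) ((2 * ρ / q : ℕ) : ℤ)
  have hT : T.card = (2 * ρ / q + 1) ^ 3 := by
    simp only [T, Fintype.card_piFinset, Int.card_Icc, Finset.prod_const, Finset.card_univ,
      Fintype.card_fin]
    generalize 2 * ρ / q = a
    congr 1
  rw [← hT, ← Finset.card_product]
  refine Finset.card_le_card_of_injOn (fun κ => (red q κ, fun i => (κ i + ρ) / q)) ?_ ?_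
  · intro κ hκ
    simp only [Finset.coe_filter, Set.mem_ofPred_eq] at hκ
    obtain ⟨h1, h2⟩ := hκ
    simp only [box, Fintype.mem_piFinset, Finset.mem_Icc] at h1
    simp only [Finset.coe_product, Set.mem_prod, Finset.mem_coe, T, Fintype.mem_piFinset,
      Finset.mem_Icc]
    refine ⟨h2, fun i => ⟨Int.ediv_nonneg (by linarith [(h1 i).1]) hq.le, ?_⟩⟩
    push_cast
    exact Int.ediv_le_ediv hq (by linarith [(h1 i).2])
  · intro a _ b _ hab
    simp only [Prod.mk.injEq] at hab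
    obtain ⟨h1, h2⟩ := hab
    funext i
    have e1 : ((a i : ℤ) : ZMod q) = (b i : ZMod q) := congrFun h1 i
    have e2 : (a i + ρ) / q = (b i + ρ) / q := congrFun h2 i
    have e3 : (a i + ρ) % q = (b i + ρ) % q := by
      have : ((a i + ρ : ℤ) : ZMod q) = ((b i + ρ : ℤ) : ZMod q) := by push_cast; rw [e1]
      exact (ZMod.intCast_eq_intCast_iff _ _ _).1 this
    have f1 := Int.emod_add_mul_ediv (a i + ρ) q
    have f2 := Int.emod_add_mul_ediv (b i + ρ) q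
    rw [e2, e3] at f1
    linarith

/-- Dyadic shells `i = Nat.log 2 (nrm κ) ∈ range (Nat.log 2 Y + 1)`: in a non-empty shell `q ≤ 3 nrm κ < 6 · 2^i`,
the shell lies in `box (2^(i+1))`, so it has at most `|K| (10 · 2^i / q)³` elements (`card_box_res`), each of weight
`≤ 8^(-i)`.  (`Finset.sum_fiberwise_of_maps_to`.) -/
theorem sum_inv_cube (q : ℕ) [NeZero q] (K : Finset (V3 (ZMod q))) (𝒦 : Finset (V3 ℤ)) (Y : ℕ)
    (h : ∀ κ ∈ 𝒦, q ≤ 3 * nrm κ ∧ nrm κ ≤ Y ∧ red q κ ∈ K) :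
    ∑ κ ∈ 𝒦, (1 : ℝ) / (nrm κ : ℝ) ^ 3 ≤ 1000 * K.card * (Nat.log 2 Y + 1 : ℕ) / (q : ℝ) ^ 3 := by
  classical
  have hq0 : 0 < q := Nat.pos_of_ne_zero (NeZero.ne q)
  have hq : (0 : ℝ) < q := by exact_mod_cast hq0
  have hmap : ∀ κ ∈ 𝒦, Nat.log 2 (nrm κ) ∈ Finset.range (Nat.log 2 Y + 1) := by
    intro κ hκ
    exact Finset.mem_range.2 (Nat.lt_succ_of_le (Nat.log_mono_right (h κ hκ).2.1))
  rw [← Finset.sum_fiberwise_of_maps_to hmap]
  have key : ∀ i ∈ Finset.range (Nat.log 2 Y + 1),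
      ∑ κ ∈ 𝒦 with Nat.log 2 (nrm κ) = i, (1 : ℝ) / (nrm κ : ℝ) ^ 3 ≤ 1000 * K.card / (q : ℝ) ^ 3 := by
    intro i _
    rcases (𝒦.filter fun κ => Nat.log 2 (nrm κ) = i).eq_empty_or_nonempty with he | ⟨κ0, hκ0⟩
    · rw [he, Finset.sum_empty]; positivity
    have hb : ∀ κ ∈ 𝒦.filter fun κ => Nat.log 2 (nrm κ) = i, 2 ^ i ≤ nrm κ ∧ nrm κ < 2 ^ (i + 1) := by
      intro κ hκ
      obtain ⟨h1, h2⟩ := Finset.mem_filter.1 hκ
      have h3 := (h κ h1).1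
      have h4 : nrm κ ≠ 0 := by omega
      rw [← h2]
      exact ⟨Nat.pow_log_le_self 2 h4, Nat.lt_pow_succ_log_self (by norm_num) _⟩
    have hq6 : q ≤ 6 * 2 ^ i := by
      have h1 := (hb κ0 hκ0).2
      have h2 := (h κ0 (Finset.mem_filter.1 hκ0).1).1
      rw [pow_succ] at h1
      omega
    have hsub : (𝒦.filter fun κ => Nat.log 2 (nrm κ) = i) ⊆
        (box (2 ^ (i + 1))).filter fun κ => red q κ ∈ K := by
      intro κ hκ
      exact Finset.mem_filter.2 ⟨mem_box.2 (hb κ hκ).2.le, (h κ (Finset.mem_filter.1 hκ).1).2.2⟩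
    have hcard := (Finset.card_le_card hsub).trans (card_box_res q K (2 ^ (i + 1)))
    have hX : (0 : ℝ) < 2 ^ i := by positivity
    have hd : ((2 * 2 ^ (i + 1) / q + 1 : ℕ) : ℝ) ≤ 10 * 2 ^ i / q := by
      have h1 : ((2 * 2 ^ (i + 1) / q : ℕ) : ℝ) ≤ ((2 * 2 ^ (i + 1) : ℕ) : ℝ) / q := Nat.cast_div_le
      have h2 : (q : ℝ) ≤ 6 * 2 ^ i := by exact_mod_cast hq6
      have h3 : (1 : ℝ) ≤ 6 * 2 ^ i / q := by rw [le_div_iff₀ hq]; linarith
      have h4 : ((2 * 2 ^ (i + 1) : ℕ) : ℝ) / q + 6 * 2 ^ i / q = 10 * 2 ^ i / q := by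
        push_cast; rw [pow_succ]; ring
      rw [Nat.cast_add, Nat.cast_one]
      linarith
    have hc : ((𝒦.filter fun κ => Nat.log 2 (nrm κ) = i).card : ℝ) ≤ K.card * (10 * 2 ^ i / q) ^ 3 := by
      have h1 : ((𝒦.filter fun κ => Nat.log 2 (nrm κ) = i).card : ℝ) ≤
          K.card * ((2 * 2 ^ (i + 1) / q + 1 : ℕ) : ℝ) ^ 3 := by exact_mod_cast hcard
      refine h1.trans ?_
      gcongr
    calc ∑ κ ∈ 𝒦 with Nat.log 2 (nrm κ) = i, (1 : ℝ) / (nrm κ : ℝ) ^ 3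
        ≤ ∑ κ ∈ 𝒦 with Nat.log 2 (nrm κ) = i, (1 : ℝ) / ((2 : ℝ) ^ i) ^ 3 := by
          refine Finset.sum_le_sum fun κ hκ => ?_
          have h1 : ((2 : ℝ) ^ i) ≤ (nrm κ : ℝ) := by exact_mod_cast (hb κ hκ).1
          gcongr
      _ = ((𝒦.filter fun κ => Nat.log 2 (nrm κ) = i).card : ℝ) * (1 / ((2 : ℝ) ^ i) ^ 3) := by
          rw [Finset.sum_const, nsmul_eq_mul]
      _ ≤ K.card * (10 * 2 ^ i / q) ^ 3 * (1 / ((2 : ℝ) ^ i) ^ 3) := by gcongr
      _ = 1000 * K.card / (q : ℝ) ^ 3 := by field_simp; ring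
  calc _ ≤ ∑ _i ∈ Finset.range (Nat.log 2 Y + 1), 1000 * (K.card : ℝ) / (q : ℝ) ^ 3 :=
        Finset.sum_le_sum key
    _ = _ := by rw [Finset.sum_const, Finset.card_range, nsmul_eq_mul]; ring

end Crest.R32
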