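import Crest.Agent.R32.Plane3
import Crest.Agent.R32.Sum

/-! Row 32. Triples of integer vectors in a box with a given non-zero determinant. -/

set_option autoImplicit false

namespace Crest.R32

open Finset Matrix

theorem Count2_plane {X : ℕ} {κ : V3 ℤ} (hκ : Prim κ) (S : Finset (V3 ℤ))
    (hX : ∀ u ∈ S, u ∈ box X) (hperp : ∀ u ∈ S, ∀ u' ∈ S, dt κ (u' - u) = 0)
    (hnc : ∃ u ∈ S, ∃ u' ∈ S, ∃ u'' ∈ S, cr (u' - u) (u'' - u) ≠ 0) :
    S.card * nrm κ ≤ 48 * X ^ 2 := by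
  obtain ⟨w, hw⟩ := hκ
  have := plane3 S X 1 κ hX hperp (fun a ha b hb c hc => ⟨dt w (cr (b - a) (c - a)), by
    rw [Nat.cast_one, one_mul]
    exact cr_eq_smul_of_prim hw (hperp a ha b hb) (hperp a ha c hc)⟩) hnc
  rwa [one_mul] at this

theorem Count2_dt_sub (κ a b : V3 ℤ) : dt κ (a - b) = dt κ a - dt κ b := by
  simp only [dt, Pi.sub_apply]; ring

theorem Count2_det (κ u v w : V3 ℤ) (d : ℤ) (huv : cr u v = d • κ) : det3 u v w = d * dt κ w := by
  rw [det3, huv]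
  simp only [dt, Pi.smul_apply, smul_eq_mul]; ring

/-- `plane3` (`D = 1`) for the set of the statement; it contains `0, u, v`. -/
theorem card_perp {X : ℕ} {κ u v : V3 ℤ} (hκ : Prim κ) (hu : u ∈ box X) (hv : v ∈ box X)
    (hκu : dt κ u = 0) (hκv : dt κ v = 0) (huv : cr u v ≠ 0) :
    ((box X).filter fun r => dt κ r = 0).card * nrm κ ≤ 48 * X ^ 2 := by
  refine Count2_plane hκ _ (fun a ha => (mem_filter.1 ha).1) (fun a ha b hb => ?_)
    ⟨0, mem_filter.2 ⟨mem_box.2 (by simp [nrm]), by simp [dt]⟩, u, mem_filter.2 ⟨hu, hκu⟩,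
      v, mem_filter.2 ⟨hv, hκv⟩, by simpa using huv⟩
  rw [Count2_dt_sub, (mem_filter.1 ha).2, (mem_filter.1 hb).2, sub_zero]

/-- If the set contains `w`, apply `plane3` (`D = 1`) to the same set in `box (X + X)`; it contains
`w, w + u, w + v`. -/
theorem card_det_fiber {X : ℕ} {κ u v : V3 ℤ} {d : ℤ} (hκ : Prim κ) (hd : d ≠ 0)
    (hu : u ∈ box X) (hv : v ∈ box X) (huv : cr u v = d • κ) (t : ℤ) :
    ((box X).filter fun w => det3 u v w = t).card * nrm κ ≤ 192 * X ^ 2 := by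
  rcases ((box X).filter fun w => det3 u v w = t).eq_empty_or_nonempty with h0 | ⟨w, hw⟩
  · rw [h0]; simp
  obtain ⟨hw, hwt⟩ := mem_filter.1 hw
  have hsub : ((box X).filter fun w => det3 u v w = t) ⊆
      (box (X + X)).filter fun w => det3 u v w = t := by
    intro a ha
    obtain ⟨ha, hat⟩ := mem_filter.1 ha
    exact mem_filter.2 ⟨mem_box.2 ((mem_box.1 ha).trans (Nat.le_add_right _ _)), hat⟩
  have hne : cr u v ≠ 0 := by
    rw [huv]
    refine smul_ne_zero hd ?_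
    rintro rfl
    obtain ⟨z, hz⟩ := hκ
    simp [dt] at hz
  have h := Count2_plane (X := X + X) hκ ((box (X + X)).filter fun w => det3 u v w = t)
    (fun a ha => (mem_filter.1 ha).1) (fun a ha b hb => ?_)
    ⟨w, hsub (mem_filter.2 ⟨hw, hwt⟩), w + u, mem_filter.2 ⟨add_mem_box hw hu, ?_⟩,
      w + v, mem_filter.2 ⟨add_mem_box hw hv, ?_⟩, by simpa using hne⟩
  · calc _ ≤ ((box (X + X)).filter fun w => det3 u v w = t).card * nrm κ :=
          Nat.mul_le_mul_right _ (card_le_card hsub)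
      _ ≤ 48 * (X + X) ^ 2 := h
      _ = 192 * X ^ 2 := by ring
  · have h1 := (mem_filter.1 ha).2
    have h2 := (mem_filter.1 hb).2
    rw [Count2_det κ u v _ d huv] at h1 h2
    rw [Count2_dt_sub, sub_eq_zero]
    exact mul_left_cancel₀ hd (h2.trans h1.symm)
  · rw [← hwt]
    simp only [det3_def, Pi.add_apply]; ring
  · rw [← hwt]
    simp only [det3_def, Pi.add_apply]; ring

/-- Send `V` to the primitive part `κ` of `cr V.1 V.2.1 ≠ 0` (`exists_prim`, `choose`); `1 ≤ nrm κ ≤ 2X²`.  The fibre over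
`κ` has at most `(48X²/|κ|)² (192X²/|κ|)` elements (`card_perp` for `V.1`, `V.2.1`, `card_det_fiber` for `V.2.2`).  Sum with
`sum_inv_cube` for `q = 1`, `K = univ` (one element), `Y = 2X²`; `48² · 192 · 1000 ≤ 10⁹`. -/
theorem count_det_ne (X : ℕ) {t : ℤ} (ht : t ≠ 0) :
    (((box3 X).filter fun V => det3 V.1 V.2.1 V.2.2 = t).card : ℝ)
      ≤ 10 ^ 9 * (X : ℝ) ^ 6 * lam X := by
  classical
  set T := (box3 X).filter fun V => det3 V.1 V.2.1 V.2.2 = t with hT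
  have hex : ∀ ν : V3 ℤ, ∃ κ : V3 ℤ, ν ≠ 0 →
      ∃ d : ℤ, Prim κ ∧ d ≠ 0 ∧ ν = d • κ ∧ nrm κ ≤ nrm ν := by
    intro ν
    by_cases h : ν = 0
    · exact ⟨0, fun h' => absurd h h'⟩
    · obtain ⟨κ, d, hκ⟩ := exists_prim h
      exact ⟨κ, fun _ => ⟨d, hκ⟩⟩
  choose pr hpr using hex
  have hmem : ∀ V ∈ T, V.1 ∈ box X ∧ V.2.1 ∈ box X ∧ V.2.2 ∈ box X ∧
      det3 V.1 V.2.1 V.2.2 = t ∧ cr V.1 V.2.1 ≠ 0 := by
    intro V hV
    obtain ⟨h1, h2⟩ := mem_filter.1 hV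
    obtain ⟨a, b, c⟩ := mem_box3.1 h1
    refine ⟨a, b, c, h2, fun h0 => ht ?_⟩
    rw [← h2, det3, h0]
    simp [dt]
  have hperp : ∀ (u v κ : V3 ℤ) (d : ℤ), d ≠ 0 → cr u v = d • κ → dt κ u = 0 ∧ dt κ v = 0 := by
    intro u v κ d hd h
    have h1 := Count2_det κ u v u d h
    have h2 := Count2_det κ u v v d h
    have h3 : det3 u v u = 0 := by simp only [det3_def]; ring
    have h4 : det3 u v v = 0 := by simp only [det3_def]; ring
    exact ⟨(mul_eq_zero.1 (h1.symm.trans h3)).resolve_left hd,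
      (mul_eq_zero.1 (h2.symm.trans h4)).resolve_left hd⟩
  set f : V3 ℤ × V3 ℤ × V3 ℤ → V3 ℤ := fun V => pr (cr V.1 V.2.1) with hf
  have hfib : ∀ κ ∈ T.image f, ((T.filter fun V => f V = κ).card : ℝ) ≤
      (192 * 48 ^ 2 * (X : ℝ) ^ 6) * (1 / (nrm κ : ℝ) ^ 3) := by
    intro κ hκ
    obtain ⟨V0, hV0, rfl⟩ := mem_image.1 hκ
    obtain ⟨a0, b0, -, -, e0⟩ := hmem V0 hV0
    obtain ⟨d0, hp, hd0, hc0, -⟩ := hpr _ e0
    set κ := f V0 with hκ'
    have hn : 1 ≤ nrm κ := hp.one_le_nrm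
    set P := (box X).filter fun r => dt κ r = 0 with hP
    have hP1 : P.card * nrm κ ≤ 48 * X ^ 2 :=
      card_perp hp a0 b0 (hperp _ _ _ _ hd0 hc0).1 (hperp _ _ _ _ hd0 hc0).2 e0
    have h1 : (T.filter fun V => f V = κ).card ≤ (192 * X ^ 2 / nrm κ) * (P ×ˢ P).card := by
      refine card_le_mul_card_image_of_maps_to (f := fun V => (V.1, V.2.1)) ?_ _ ?_
      · intro V hV
        obtain ⟨hV, hVκ⟩ := mem_filter.1 hV
        obtain ⟨a, b, -, -, e⟩ := hmem V hV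
        obtain ⟨d, -, hd, hc, -⟩ := hpr _ e
        have hc' : cr V.1 V.2.1 = d • κ := by rw [← hVκ]; exact hc
        exact mem_product.2 ⟨mem_filter.2 ⟨a, (hperp _ _ _ _ hd hc').1⟩,
          mem_filter.2 ⟨b, (hperp _ _ _ _ hd hc').2⟩⟩
      · rintro ⟨u, v⟩ -
        rcases ((T.filter fun V => f V = κ).filter
          fun V => (V.1, V.2.1) = (u, v)).eq_empty_or_nonempty with h0 | ⟨V, hV⟩
        · rw [h0]; simp
        obtain ⟨hV, huv⟩ := mem_filter.1 hV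
        obtain ⟨hV, hVκ⟩ := mem_filter.1 hV
        obtain ⟨a, b, -, -, e⟩ := hmem V hV
        obtain ⟨d, -, hd, hc, -⟩ := hpr _ e
        have hc' : cr V.1 V.2.1 = d • κ := by rw [← hVκ]; exact hc
        obtain ⟨rfl, rfl⟩ := Prod.mk.inj huv
        rw [Nat.le_div_iff_mul_le hn]
        refine le_trans (Nat.mul_le_mul_right _ ?_) (card_det_fiber hp hd a b hc' t)
        refine card_le_card_of_injOn (fun W => W.2.2) ?_ ?_
        · intro W hW
          obtain ⟨hW, huv'⟩ := mem_filter.1 (mem_coe.1 hW)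
          obtain ⟨-, -, c, e', -⟩ := hmem W (mem_filter.1 hW).1
          obtain ⟨h1, h2⟩ := Prod.mk.inj huv'
          exact mem_coe.2 (mem_filter.2 ⟨c, by rw [← h1, ← h2]; exact e'⟩)
        · intro W hW W' hW' h
          obtain ⟨h1, h2⟩ := Prod.mk.inj (mem_filter.1 (mem_coe.1 hW)).2
          obtain ⟨h1', h2'⟩ := Prod.mk.inj (mem_filter.1 (mem_coe.1 hW')).2
          exact Prod.ext (h1.trans h1'.symm) (Prod.ext (h2.trans h2'.symm) h)
    rw [card_product] at h1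
    have hn' : (0 : ℝ) < nrm κ := by exact_mod_cast hn
    have h2 : (P.card : ℝ) ≤ 48 * (X : ℝ) ^ 2 / nrm κ := by
      rw [le_div_iff₀ hn']
      exact_mod_cast hP1
    have h3 : ((192 * X ^ 2 / nrm κ : ℕ) : ℝ) ≤ 192 * (X : ℝ) ^ 2 / nrm κ := by
      have := Nat.cast_div_le (α := ℝ) (m := 192 * X ^ 2) (n := nrm κ)
      push_cast at this
      exact this
    calc ((T.filter fun V => f V = κ).card : ℝ)
        ≤ ((192 * X ^ 2 / nrm κ : ℕ) : ℝ) * ((P.card : ℝ) * P.card) := by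
          rw [← Nat.cast_mul, ← Nat.cast_mul]
          exact Nat.cast_le.2 h1
      _ ≤ (192 * (X : ℝ) ^ 2 / nrm κ) *
          ((48 * (X : ℝ) ^ 2 / nrm κ) * (48 * (X : ℝ) ^ 2 / nrm κ)) :=
        mul_le_mul h3 (mul_self_le_mul_self (Nat.cast_nonneg _) h2)
          (mul_nonneg (Nat.cast_nonneg _) (Nat.cast_nonneg _)) ((Nat.cast_nonneg _).trans h3)
      _ = _ := by field_simp
  have hsum := sum_inv_cube 1 univ (T.image f) (2 * X ^ 2) (fun κ hκ => by
    obtain ⟨V, hV, rfl⟩ := mem_image.1 hκ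
    obtain ⟨a, b, -, -, e⟩ := hmem V hV
    obtain ⟨d, hp, -, -, hle⟩ := hpr _ e
    have := hp.one_le_nrm
    exact ⟨by simp only [hf]; omega, hle.trans (nrm_cr_le a b), mem_univ _⟩)
  have hcard : (univ : Finset (V3 (ZMod 1))).card = 1 := by simp
  rw [hcard] at hsum
  rw [card_eq_sum_card_image f T, Nat.cast_sum]
  refine (sum_le_sum hfib).trans ?_
  rw [← mul_sum]
  have hl : (0 : ℝ) ≤ lam X := Nat.cast_nonneg _
  have hs : ∑ κ ∈ T.image f, (1 : ℝ) / (nrm κ : ℝ) ^ 3 ≤ 1000 * lam X := by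
    simpa [lam] using hsum
  have hX : (0 : ℝ) ≤ (X : ℝ) ^ 6 := by positivity
  calc _ ≤ (192 * 48 ^ 2 * (X : ℝ) ^ 6) * (1000 * lam X) := by gcongr
    _ = (192 * 48 ^ 2 * 1000) * ((X : ℝ) ^ 6 * lam X) := by ring
    _ ≤ 10 ^ 9 * ((X : ℝ) ^ 6 * lam X) := by gcongr; norm_num
    _ = _ := by ring

end Crest.R32
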