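import Crest.Agent.R32.Plane3
import Crest.Agent.R32.Sum

/-! Row 32. Singular triples of integer vectors in a box. -/

set_option autoImplicit false

namespace Crest.R32

open Finset Matrix

/-- the `i`-th row of the matrix with columns `V.1, V.2.1, V.2.2` -/
def row (V : V3 ℤ × V3 ℤ × V3 ℤ) (i : Fin 3) : V3 ℤ := ![V.1 i, V.2.1 i, V.2.2 i]

theorem Count3_row_mem {X : ℕ} {V : V3 ℤ × V3 ℤ × V3 ℤ} (hV : V ∈ box3 X) (i : Fin 3) :
    row V i ∈ box X := by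
  rw [mem_box3] at hV
  obtain ⟨h1, h2, h3⟩ := hV
  simp only [box, Fintype.mem_piFinset] at h1 h2 h3 ⊢
  intro k
  fin_cases k
  · simpa [row] using h1 i
  · simpa [row] using h2 i
  · simpa [row] using h3 i

theorem Count3_rel_aux {X : ℕ} {V : V3 ℤ × V3 ℤ × V3 ℤ} (hV : V ∈ box3 X) (i j : Fin 3)
    (hs : cr (row V i) (row V j) 0 + cr (row V i) (row V j) 1 + cr (row V i) (row V j) 2 ≠ 0)
    (hp : ∀ k, dt (cr (row V i) (row V j)) (row V k) = 0) :
    ∃ κ : V3 ℤ, Prim κ ∧ nrm κ ≤ 2 * X ^ 2 ∧ κ 0 + κ 1 + κ 2 ≠ 0 ∧ (∀ i, dt κ (row V i) = 0) ∧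
      ∃ i j, cr (row V i) (row V j) ≠ 0 := by
  have hν : cr (row V i) (row V j) ≠ 0 := by
    intro h
    apply hs
    rw [h]
    simp
  obtain ⟨κ, d, hκ, hd, he, hn⟩ := exists_prim hν
  refine ⟨κ, hκ, hn.trans (nrm_cr_le (Count3_row_mem hV i) (Count3_row_mem hV j)), ?_, ?_, i, j, hν⟩
  · intro h
    apply hs
    rw [he]
    simp only [Pi.smul_apply, smul_eq_mul]
    linear_combination d * h
  · intro k
    have h := hp k
    rw [he] at h
    simp only [dt, Pi.smul_apply, smul_eq_mul] at h ⊢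
    apply mul_left_cancel₀ hd
    linear_combination h

/-- Each entry of `cr (V.2.1 - V.1) (V.2.2 - V.1)` is the coordinate sum of `cr (row V i) (row V j)` for a pair
`(i, j) ∈ {(1,2), (2,0), (0,1)}`.  Take a non-zero entry, `κ` the primitive part of that `cr (row V i) (row V j)`;
the third row is orthogonal to it because the determinant vanishes. -/
theorem exists_relation {X : ℕ} {V : V3 ℤ × V3 ℤ × V3 ℤ} (hV : V ∈ box3 X)
    (hnd : cr (V.2.1 - V.1) (V.2.2 - V.1) ≠ 0) (hdet : det3 V.1 V.2.1 V.2.2 = 0) :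
    ∃ κ : V3 ℤ, Prim κ ∧ nrm κ ≤ 2 * X ^ 2 ∧ κ 0 + κ 1 + κ 2 ≠ 0 ∧ (∀ i, dt κ (row V i) = 0) ∧
      ∃ i j, cr (row V i) (row V j) ≠ 0 := by
  rw [det3_def] at hdet
  rw [Ne, cr_eq_zero_iff] at hnd
  simp only [Pi.sub_apply] at hnd
  by_cases h0 : (V.2.1 1 - V.1 1) * (V.2.2 2 - V.1 2) - (V.2.1 2 - V.1 2) * (V.2.2 1 - V.1 1) = 0
  · by_cases h1 : (V.2.1 2 - V.1 2) * (V.2.2 0 - V.1 0) - (V.2.1 0 - V.1 0) * (V.2.2 2 - V.1 2) = 0
    · have h2 : (V.2.1 0 - V.1 0) * (V.2.2 1 - V.1 1) - (V.2.1 1 - V.1 1) * (V.2.2 0 - V.1 0) ≠ 0 :=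
        fun h2 => hnd ⟨h0, h1, h2⟩
      refine Count3_rel_aux hV 0 1 ?_ ?_
      · intro h
        apply h2
        simp [cr, row] at h
        linear_combination h
      · intro k
        fin_cases k
        · simp [cr, row, dt]; ring
        · simp [cr, row, dt]; ring
        · simp [cr, row, dt]; linear_combination hdet
    · refine Count3_rel_aux hV 2 0 ?_ ?_
      · intro h
        apply h1
        simp [cr, row] at h
        linear_combination h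
      · intro k
        fin_cases k
        · simp [cr, row, dt]; ring
        · simp [cr, row, dt]; linear_combination hdet
        · simp [cr, row, dt]; ring
  · refine Count3_rel_aux hV 1 2 ?_ ?_
    · intro h
      apply h0
      simp [cr, row] at h
      linear_combination h
    · intro k
      fin_cases k
      · simp [cr, row, dt]; linear_combination hdet
      · simp [cr, row, dt]; ring
      · simp [cr, row, dt]; ring

/-- `plane3`; the set contains `0, u, v`.  For two differences `d, d'` of elements, `cr d d' = m • κ` with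
`m = dt w (cr d d')` (`cr_eq_smul_of_prim`) and `D` divides every entry of `cr d d'`, so `D ∣ m`. -/
theorem card_perp_cong {X D : ℕ} {κ u v : V3 ℤ} (hκ : Prim κ)
    (hu : u ∈ (box X).filter fun r => dt κ r = 0 ∧ (D : ℤ) ∣ r 1 - r 0 ∧ (D : ℤ) ∣ r 2 - r 0)
    (hv : v ∈ (box X).filter fun r => dt κ r = 0 ∧ (D : ℤ) ∣ r 1 - r 0 ∧ (D : ℤ) ∣ r 2 - r 0)
    (huv : cr u v ≠ 0) :
    ((box X).filter fun r => dt κ r = 0 ∧ (D : ℤ) ∣ r 1 - r 0 ∧ (D : ℤ) ∣ r 2 - r 0).card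
      * (D * nrm κ) ≤ 48 * X ^ 2 := by
  obtain ⟨w, hw⟩ := hκ
  have hsub : ∀ r r' : V3 ℤ, dt κ r = 0 → dt κ r' = 0 → dt κ (r' - r) = 0 := by
    intro r r' h h'
    simp only [dt, Pi.sub_apply] at h h' ⊢
    linear_combination h' - h
  apply plane3 _ X D κ
  · intro r hr
    exact (mem_filter.1 hr).1
  · intro r hr r' hr'
    exact hsub r r' (mem_filter.1 hr).2.1 (mem_filter.1 hr').2.1
  · intro r hr r' hr' r'' hr''
    obtain ⟨-, h0, ⟨s, hs⟩, ⟨t, ht⟩⟩ := mem_filter.1 hr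
    obtain ⟨-, h0', ⟨s', hs'⟩, ⟨t', ht'⟩⟩ := mem_filter.1 hr'
    obtain ⟨-, h0'', ⟨s'', hs''⟩, ⟨t'', ht''⟩⟩ := mem_filter.1 hr''
    have key := cr_eq_smul_of_prim hw (hsub r r' h0 h0') (hsub r r'' h0 h0'')
    have hdiv : (D : ℤ) ∣ dt w (cr (r' - r) (r'' - r)) := by
      have e1 : r 1 = r 0 + D * s := by linear_combination hs
      have e2 : r 2 = r 0 + D * t := by linear_combination ht
      have e1' : r' 1 = r' 0 + D * s' := by linear_combination hs'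
      have e2' : r' 2 = r' 0 + D * t' := by linear_combination ht'
      have e1'' : r'' 1 = r'' 0 + D * s'' := by linear_combination hs''
      have e2'' : r'' 2 = r'' 0 + D * t'' := by linear_combination ht''
      refine ⟨w 0 * ((r' 0 - r 0) * (t'' - t) + (s' - s) * (r'' 0 - r 0) + D * (s' - s) * (t'' - t)
          - (r' 0 - r 0) * (s'' - s) - (t' - t) * (r'' 0 - r 0) - D * (t' - t) * (s'' - s))
        + w 1 * ((t' - t) * (r'' 0 - r 0) - (r' 0 - r 0) * (t'' - t))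
        + w 2 * ((r' 0 - r 0) * (s'' - s) - (s' - s) * (r'' 0 - r 0)), ?_⟩
      simp only [dt, cr, Pi.sub_apply, Matrix.cons_val_zero, Matrix.cons_val_one, Matrix.cons_val_two,
        Matrix.head_cons, Matrix.tail_cons]
      rw [e1, e2, e1', e2', e1'', e2'']
      ring
    obtain ⟨m, hm⟩ := hdiv
    exact ⟨m, by rw [key, hm]⟩
  · refine ⟨0, ?_, u, hu, v, hv, by simpa using huv⟩
    rw [mem_filter, mem_box]
    simp [nrm, dt]

theorem count3_row_mem_box {X : ℕ} {V : V3 ℤ × V3 ℤ × V3 ℤ} (hV : V ∈ box3 X) (i : Fin 3) :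
    row V i ∈ box X := by
  rw [mem_box3] at hV
  obtain ⟨h1, h2, h3⟩ := hV
  simp only [box, Fintype.mem_piFinset] at h1 h2 h3 ⊢
  intro j
  fin_cases j
  · simpa [row] using h1 i
  · simpa [row] using h2 i
  · simpa [row] using h3 i

theorem count3_row_inj : Function.Injective
    (fun V : V3 ℤ × V3 ℤ × V3 ℤ => (row V 0, row V 1, row V 2)) := by
  intro V W h
  simp only [Prod.mk.injEq] at h
  obtain ⟨h0, h1, h2⟩ := h
  have k : ∀ i, row V i = row W i := by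
    intro i
    fin_cases i
    · exact h0
    · exact h1
    · exact h2
  refine Prod.ext ?_ (Prod.ext ?_ ?_)
  · funext i; simpa [row] using congrFun (k i) 0
  · funext i; simpa [row] using congrFun (k i) 1
  · funext i; simpa [row] using congrFun (k i) 2

theorem count3_le_three_nrm {q : ℕ} {κ : V3 ℤ} (h0 : κ 0 + κ 1 + κ 2 ≠ 0)
    (h : red q κ 0 + red q κ 1 + red q κ 2 = 0) : q ≤ 3 * nrm κ := by
  have hd : (q : ℤ) ∣ κ 0 + κ 1 + κ 2 := by
    rw [← ZMod.intCast_zmod_eq_zero_iff_dvd]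
    simpa [red] using h
  have h1 : q ≤ (κ 0 + κ 1 + κ 2).natAbs := by
    have := Int.natAbs_dvd_natAbs.mpr hd
    rw [Int.natAbs_natCast] at this
    exact Nat.le_of_dvd (Int.natAbs_pos.mpr h0) this
  unfold nrm
  omega

/-- Send `V` to `κ` from `exists_relation` (`choose`).  `κ 0 • V.1 + κ 1 • V.2.1 + κ 2 • V.2.2 = 0`, so `red q κ ∈ K`,
`q ∣ κ 0 + κ 1 + κ 2 ≠ 0`, `q ≤ 3 nrm κ`.  `V ↦ (row V 0, row V 1, row V 2)` is injective and each row lies in the set of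
`card_perp_cong`, so the fibre over `κ` has at most `(48X²/(D|κ|))³` elements.  Sum with `sum_inv_cube`, `Y = 2X²`;
`48³ · 1000 ≤ 10⁹`. -/
theorem count_det_zero (X q D : ℕ) [NeZero q] (hD : 0 < D) (K : Finset (V3 (ZMod q)))
    (hK : ∀ κ ∈ K, κ 0 + κ 1 + κ 2 = 0) (𝒱 : Finset (V3 ℤ × V3 ℤ × V3 ℤ))
    (hbox : ∀ V ∈ 𝒱, V ∈ box3 X)
    (hnd : ∀ V ∈ 𝒱, cr (V.2.1 - V.1) (V.2.2 - V.1) ≠ 0)
    (hdet : ∀ V ∈ 𝒱, det3 V.1 V.2.1 V.2.2 = 0)
    (hrel : ∀ V ∈ 𝒱, ∀ κ : V3 ℤ, κ 0 • V.1 + κ 1 • V.2.1 + κ 2 • V.2.2 = 0 → red q κ ∈ K)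
    (hcong : ∀ V ∈ 𝒱, ∀ i, (D : ℤ) ∣ V.2.1 i - V.1 i ∧ (D : ℤ) ∣ V.2.2 i - V.1 i) :
    (𝒱.card : ℝ) ≤ 10 ^ 9 * (X : ℝ) ^ 6 * lam X * K.card / ((q : ℝ) ^ 3 * (D : ℝ) ^ 3) := by
  classical
  choose! f hf using fun V (hV : V ∈ 𝒱) => exists_relation (hbox V hV) (hnd V hV) (hdet V hV)
  have hq : (0 : ℝ) < q := by exact_mod_cast Nat.pos_of_ne_zero (NeZero.ne q)
  have hD' : (0 : ℝ) < D := by exact_mod_cast hD
  have hrelK : ∀ V ∈ 𝒱, f V 0 • V.1 + f V 1 • V.2.1 + f V 2 • V.2.2 = 0 := by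
    intro V hV
    funext i
    have := (hf V hV).2.2.2.1 i
    simpa [dt, row] using this
  have h𝒦 : ∀ κ ∈ 𝒱.image f, q ≤ 3 * nrm κ ∧ nrm κ ≤ 2 * X ^ 2 ∧ red q κ ∈ K := by
    intro κ hκ
    obtain ⟨V, hV, rfl⟩ := Finset.mem_image.mp hκ
    have hK' := hrel V hV _ (hrelK V hV)
    exact ⟨count3_le_three_nrm (hf V hV).2.2.1 (hK _ hK'), (hf V hV).2.1, hK'⟩
  have hfib : ∀ κ ∈ 𝒱.image f, ((𝒱.filter fun V => f V = κ).card : ℝ)
      ≤ (48 * (X : ℝ) ^ 2) ^ 3 / (D : ℝ) ^ 3 * (1 / (nrm κ : ℝ) ^ 3) := by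
    intro κ hκ
    obtain ⟨V₀, hV₀, hfV₀⟩ := Finset.mem_image.mp hκ
    set S := (box X).filter fun r => dt κ r = 0 ∧ (D : ℤ) ∣ r 1 - r 0 ∧ (D : ℤ) ∣ r 2 - r 0 with hS
    have hmem : ∀ V ∈ 𝒱, f V = κ → ∀ i, row V i ∈ S := by
      intro V hV hfV i
      refine Finset.mem_filter.mpr ⟨count3_row_mem_box (hbox V hV) i, ?_, ?_, ?_⟩
      · rw [← hfV]; exact (hf V hV).2.2.2.1 i
      · simpa [row] using (hcong V hV i).1
      · simpa [row] using (hcong V hV i).2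
    have hprim : Prim κ := by rw [← hfV₀]; exact (hf V₀ hV₀).1
    obtain ⟨i, j, hij⟩ := (hf V₀ hV₀).2.2.2.2
    have hc := card_perp_cong (X := X) (D := D) hprim (hmem V₀ hV₀ hfV₀ i) (hmem V₀ hV₀ hfV₀ j) hij
    have hn : (0 : ℝ) < nrm κ := by exact_mod_cast hprim.one_le_nrm
    have hc' : (S.card : ℝ) ≤ 48 * (X : ℝ) ^ 2 / ((D : ℝ) * nrm κ) := by
      rw [le_div_iff₀ (by positivity)]
      exact_mod_cast hc
    have hcard : (𝒱.filter fun V => f V = κ).card ≤ (S ×ˢ S ×ˢ S).card := by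
      refine Finset.card_le_card_of_injOn (fun V => (row V 0, row V 1, row V 2)) ?_
        (count3_row_inj.injOn)
      intro V hV
      have hV' := Finset.mem_filter.mp (Finset.mem_coe.mp hV)
      simp only [Finset.coe_product, Set.mem_prod, Finset.mem_coe]
      exact ⟨hmem V hV'.1 hV'.2 0, hmem V hV'.1 hV'.2 1, hmem V hV'.1 hV'.2 2⟩
    have hcard' : ((𝒱.filter fun V => f V = κ).card : ℝ) ≤ (S.card : ℝ) ^ 3 := by
      rw [Finset.card_product, Finset.card_product] at hcard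
      have : ((𝒱.filter fun V => f V = κ).card : ℝ) ≤ ((S.card * (S.card * S.card) : ℕ) : ℝ) := by
        exact_mod_cast hcard
      refine this.trans (le_of_eq ?_)
      push_cast; ring
    refine hcard'.trans ((pow_le_pow_left₀ (by positivity) hc' 3).trans (le_of_eq ?_))
    field_simp
  have hsum := sum_inv_cube q K (𝒱.image f) (2 * X ^ 2) h𝒦
  calc (𝒱.card : ℝ) = ∑ κ ∈ 𝒱.image f, ((𝒱.filter fun V => f V = κ).card : ℝ) := by
        rw [Finset.card_eq_sum_card_image f 𝒱]; push_cast; rfl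
    _ ≤ ∑ κ ∈ 𝒱.image f, (48 * (X : ℝ) ^ 2) ^ 3 / (D : ℝ) ^ 3 * (1 / (nrm κ : ℝ) ^ 3) :=
        Finset.sum_le_sum hfib
    _ = (48 * (X : ℝ) ^ 2) ^ 3 / (D : ℝ) ^ 3 * ∑ κ ∈ 𝒱.image f, (1 / (nrm κ : ℝ) ^ 3) := by
        rw [Finset.mul_sum]
    _ ≤ (48 * (X : ℝ) ^ 2) ^ 3 / (D : ℝ) ^ 3
          * (1000 * K.card * (Nat.log 2 (2 * X ^ 2) + 1 : ℕ) / (q : ℝ) ^ 3) :=
        mul_le_mul_of_nonneg_left hsum (by positivity)
    _ = 110592000 * ((X : ℝ) ^ 6 * lam X * K.card / ((q : ℝ) ^ 3 * (D : ℝ) ^ 3)) := by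
        unfold lam
        field_simp
        ring
    _ ≤ 10 ^ 9 * ((X : ℝ) ^ 6 * lam X * K.card / ((q : ℝ) ^ 3 * (D : ℝ) ^ 3)) :=
        mul_le_mul_of_nonneg_right (by norm_num) (by positivity)
    _ = _ := by ring

end Crest.R32
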