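import Mathlib

/-! Row 32 (Heilbronn lower bound `n^(-2+η)`).  Definitions.

Plan.  A planar point is `(x/z, y/z)` for an integer vector `v = (x, y, z)` with `0 ≤ x, y < N ≤ z < 2N`,
`N = q ℓ` (two primes); twice the area is `|det| / (z₁ z₂ z₃)`.  Modulo `q` the vectors are `g β` with `g`
random in `SL₃(𝔽_q)` and `β` from a gadget with `p²` classes such that three distinct classes force
`|det| ≥ q / (4p)`; modulo `ℓ` they are a random affine image of a cap.  A triple with two equal classes is bad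
with probability `≲ log N · q / N³`; deletion gives `n² ≈ p² N³ / (q log N)` points and area `≈ p / (n² log n)`. -/

set_option autoImplicit false

namespace Crest.R32

open Finset Matrix

abbrev V3 (R : Type*) := Fin 3 → R

/-- cross product -/
def cr {R : Type*} [CommRing R] (u v : V3 R) : V3 R :=
  ![u 1 * v 2 - u 2 * v 1, u 2 * v 0 - u 0 * v 2, u 0 * v 1 - u 1 * v 0]

/-- dot product -/
def dt {R : Type*} [CommRing R] (u v : V3 R) : R := u 0 * v 0 + u 1 * v 1 + u 2 * v 2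

/-- determinant of three vectors -/
def det3 {R : Type*} [CommRing R] (u v w : V3 R) : R := dt (cr u v) w

/-- sup norm -/
def nrm (u : V3 ℤ) : ℕ := max (u 0).natAbs (max (u 1).natAbs (u 2).natAbs)

noncomputable def box (X : ℕ) : Finset (V3 ℤ) := Fintype.piFinset fun _ => Finset.Icc (-(X : ℤ)) X

noncomputable def box3 (X : ℕ) : Finset (V3 ℤ × V3 ℤ × V3 ℤ) := box X ×ˢ box X ×ˢ box X

/-- primitive integer vector (Bezout form) -/
def Prim (κ : V3 ℤ) : Prop := ∃ w : V3 ℤ, dt w κ = 1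

/-- reduction modulo `q` -/
def red (q : ℕ) (u : V3 ℤ) : V3 (ZMod q) := fun i => (u i : ZMod q)

/-- the logarithmic factor -/
def lam (X : ℕ) : ℕ := Nat.log 2 (2 * X ^ 2) + 1

abbrev M3 (q : ℕ) := Matrix (Fin 3) (Fin 3) (ZMod q)

def SLs (q : ℕ) [NeZero q] : Finset (M3 q) := univ.filter fun g => g.det = 1

def GLs (q : ℕ) [NeZero q] : Finset (M3 q) := univ.filter fun g => g.det ≠ 0

/-- the sample space -/
def Om (q l : ℕ) [NeZero q] [NeZero l] : Finset (M3 q × M3 l × V3 (ZMod l)) :=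
  SLs q ×ˢ GLs l ×ˢ univ

/-- a Chinese-remainder lift into the box `[0,N)² × [N,2N)`, `N = q l` -/
structure Lift (q l : ℕ) where
  L : V3 (ZMod q) → V3 (ZMod l) → V3 ℤ
  redq : ∀ a b, red q (L a b) = a
  redl : ∀ a b, red l (L a b) = b
  b0 : ∀ a b, 0 ≤ L a b 0 ∧ L a b 0 < q * l
  b1 : ∀ a b, 0 ≤ L a b 1 ∧ L a b 1 < q * l
  b2 : ∀ a b, (q * l : ℤ) ≤ L a b 2 ∧ L a b 2 < 2 * (q * l)

/-- the random integer vector attached to the residues `β` (mod `q`) and `γ` (mod `l`) -/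
def Lift.pt {q l : ℕ} (Λ : Lift q l) (ω : M3 q × M3 l × V3 (ZMod l)) (β : V3 (ZMod q))
    (γ : V3 (ZMod l)) : V3 ℤ :=
  Λ.L (ω.1 *ᵥ β) (ω.2.1 *ᵥ γ + ω.2.2)

/-- the samples for which the triple is bad -/
def Lift.bad {q l : ℕ} [NeZero q] [NeZero l] (Λ : Lift q l) (p : ℕ) (b1 b2 b3 : V3 (ZMod q))
    (c1 c2 c3 : V3 (ZMod l)) : Finset (M3 q × M3 l × V3 (ZMod l)) :=
  (Om q l).filter fun ω => 4 * p * |det3 (Λ.pt ω b1 c1) (Λ.pt ω b2 c2) (Λ.pt ω b3 c3)| < q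

/-- the gadget: labels are (class, shift) -/
structure Gadget (p q I : ℕ) where
  β : (ZMod p × ZMod p) × Fin I → V3 (ZMod q)
  far : ∀ l1 l2 l3, l1.1 ≠ l2.1 → l1.1 ≠ l3.1 → l2.1 ≠ l3.1 → ∀ t : ℤ,
    (t : ZMod q) = det3 (β l1) (β l2) (β l3) → (q : ℤ) ≤ 4 * p * |t|
  ind : ∀ l1 l2, l1 ≠ l2 → cr (β l1) (β l2) ≠ 0
  ne : ∀ l, β l ≠ 0
  sum0 : ∀ l1 l2 l3, (l1.1 = l2.1 ∨ l1.1 = l3.1 ∨ l2.1 = l3.1) → ∀ κ : V3 (ZMod q),
    κ 0 • β l1 + κ 1 • β l2 + κ 2 • β l3 = 0 → κ 0 + κ 1 + κ 2 = 0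

theorem mem_box {X : ℕ} {u : V3 ℤ} : u ∈ box X ↔ nrm u ≤ X := by
  simp only [box, Fintype.mem_piFinset, Finset.mem_Icc, nrm, Fin.forall_fin_succ, max_le_iff]
  simp only [Fin.succ_zero_eq_one, Fin.succ_one_eq_two, IsEmpty.forall_iff, and_true]
  omega

theorem mem_box3 {X : ℕ} {V : V3 ℤ × V3 ℤ × V3 ℤ} :
    V ∈ box3 X ↔ V.1 ∈ box X ∧ V.2.1 ∈ box X ∧ V.2.2 ∈ box X := by
  simp [box3]

theorem v3_ext {R : Type*} {u v : V3 R} (h0 : u 0 = v 0) (h1 : u 1 = v 1) (h2 : u 2 = v 2) :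
    u = v := by
  funext i; fin_cases i <;> assumption

theorem cr_eq_zero_iff {R : Type*} [CommRing R] {u v : V3 R} :
    cr u v = 0 ↔ u 1 * v 2 - u 2 * v 1 = 0 ∧ u 2 * v 0 - u 0 * v 2 = 0 ∧ u 0 * v 1 - u 1 * v 0 = 0 := by
  constructor
  · intro h
    exact ⟨by simpa [cr] using congrFun h 0, by simpa [cr] using congrFun h 1,
      by simpa [cr] using congrFun h 2⟩
  · rintro ⟨h0, h1, h2⟩
    exact v3_ext (by simpa [cr] using h0) (by simpa [cr] using h1) (by simpa [cr] using h2)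

theorem det3_def {R : Type*} [CommRing R] (u v w : V3 R) :
    det3 u v w = (u 1 * v 2 - u 2 * v 1) * w 0 + (u 2 * v 0 - u 0 * v 2) * w 1
      + (u 0 * v 1 - u 1 * v 0) * w 2 := by
  simp [det3, dt, cr]

theorem det3_mulVec {R : Type*} [CommRing R] (g : Matrix (Fin 3) (Fin 3) R) (u v w : V3 R) :
    det3 (g *ᵥ u) (g *ᵥ v) (g *ᵥ w) = g.det * det3 u v w := by
  simp only [det3_def, Matrix.det_fin_three, Matrix.mulVec, dotProduct, Fin.sum_univ_three]
  ring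

theorem red_det3 (q : ℕ) (u v w : V3 ℤ) :
    ((det3 u v w : ℤ) : ZMod q) = det3 (red q u) (red q v) (red q w) := by
  simp [det3_def, red]

theorem red_cr (q : ℕ) (u v : V3 ℤ) : red q (cr u v) = cr (red q u) (red q v) := by
  refine v3_ext ?_ ?_ ?_ <;> simp [cr, red]

theorem red_sub (q : ℕ) (u v : V3 ℤ) : red q (u - v) = red q u - red q v := by
  funext i; simp [red]

theorem red_add (q : ℕ) (u v : V3 ℤ) : red q (u + v) = red q u + red q v := by
  funext i; simp [red]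

theorem red_smul (q : ℕ) (a : ℤ) (u : V3 ℤ) : red q (a • u) = (a : ZMod q) • red q u := by
  funext i; simp [red]

theorem red_zero (q : ℕ) : red q 0 = 0 := by
  funext i; simp [red]

theorem Lift.L_mem_box {q l : ℕ} (Λ : Lift q l) (a : V3 (ZMod q)) (b : V3 (ZMod l)) :
    Λ.L a b ∈ box (2 * (q * l)) := by
  have h0 := Λ.b0 a b
  have h1 := Λ.b1 a b
  have h2 := Λ.b2 a b
  have hN : (0 : ℤ) ≤ q * l := by positivity
  simp only [box, Fintype.mem_piFinset, Finset.mem_Icc]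
  intro i
  push_cast
  fin_cases i <;> simp only [Fin.zero_eta, Fin.mk_one, Fin.reduceFinMk] <;> constructor <;> linarith [h0.1, h0.2, h1.1, h1.2, h2.1, h2.2]

end Crest.R32
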