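import Crest.Agent.R32.Defs

/-! Row 32. Averaging, deletion, and counting triples of labels. -/

set_option autoImplicit false

namespace Crest.R32

open Finset

/-- Swap the sums: some `ω ∈ Ω` has at most `card ι / 2` bad triples of distinct indices
(`Finset.exists_le_of_sum_le`); `J` = the complement of the set of first entries of the bad triples. -/
theorem exists_good {ι Ω : Type*} [Fintype ι] [DecidableEq ι] [DecidableEq Ω] (O : Finset Ω) (hO : O.Nonempty)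
    (bad : ι → ι → ι → Finset Ω)
    (h : ∑ x ∈ (univ : Finset (ι × ι × ι)) with x.1 ≠ x.2.1 ∧ x.1 ≠ x.2.2 ∧ x.2.1 ≠ x.2.2,
      ((bad x.1 x.2.1 x.2.2).card : ℝ) ≤ O.card * ((Fintype.card ι : ℝ) / 2)) :
    ∃ ω ∈ O, ∃ J : Finset ι, Fintype.card ι ≤ 2 * J.card ∧
      ∀ i ∈ J, ∀ j ∈ J, ∀ k ∈ J, i ≠ j → i ≠ k → j ≠ k → ω ∉ bad i j k := by
  classical
  set T : Finset (ι × ι × ι) :=
    (univ : Finset (ι × ι × ι)).filter fun x => x.1 ≠ x.2.1 ∧ x.1 ≠ x.2.2 ∧ x.2.1 ≠ x.2.2 with hT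
  have key : ∑ ω ∈ O, (((T.filter fun x => ω ∈ bad x.1 x.2.1 x.2.2).card : ℕ) : ℝ)
      ≤ ∑ _ω ∈ O, ((Fintype.card ι : ℝ) / 2) := by
    rw [Finset.sum_const, nsmul_eq_mul]
    refine le_trans ?_ h
    have e1 : ∀ ω ∈ O, (((T.filter fun x => ω ∈ bad x.1 x.2.1 x.2.2).card : ℕ) : ℝ)
        = ∑ x ∈ T, if ω ∈ bad x.1 x.2.1 x.2.2 then (1 : ℝ) else 0 := by
      intro ω _
      rw [Finset.card_filter]
      push_cast
      rfl
    rw [Finset.sum_congr rfl e1, Finset.sum_comm]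
    refine Finset.sum_le_sum fun x _ => ?_
    have e2 : ∑ ω ∈ O, (if ω ∈ bad x.1 x.2.1 x.2.2 then (1 : ℝ) else 0)
        = ((O.filter fun ω => ω ∈ bad x.1 x.2.1 x.2.2).card : ℝ) := by
      rw [Finset.card_filter]
      push_cast
      rfl
    rw [e2]
    exact_mod_cast Finset.card_le_card fun ω hω => (Finset.mem_filter.1 hω).2
  obtain ⟨ω, hω, hle⟩ := Finset.exists_le_of_sum_le hO key
  set Bd := T.filter fun x => ω ∈ bad x.1 x.2.1 x.2.2 with hBd
  refine ⟨ω, hω, univ \ Bd.image Prod.fst, ?_, ?_⟩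
  · have h1 : (Bd.image Prod.fst).card ≤ Bd.card := Finset.card_image_le
    have h2 : (univ \ Bd.image Prod.fst).card + (Bd.image Prod.fst).card = Fintype.card ι := by
      rw [Finset.card_sdiff_add_card_eq_card (Finset.subset_univ _), Finset.card_univ]
    have h3 : 2 * Bd.card ≤ Fintype.card ι := by
      have : (2 : ℝ) * (Bd.card : ℝ) ≤ (Fintype.card ι : ℝ) := by linarith
      exact_mod_cast this
    omega
  · intro i hi j _ k _ hij hik hjk hb
    rw [Finset.mem_sdiff] at hi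
    refine hi.2 (Finset.mem_image.2 ⟨(i, j, k), ?_, rfl⟩)
    rw [hBd, Finset.mem_filter, hT, Finset.mem_filter]
    exact ⟨⟨Finset.mem_univ _, hij, hik, hjk⟩, hb⟩

theorem Del_card_le {X A : Type*} [Fintype X] [Fintype A] (S : Finset X) (f : X → A → X)
    (hf : ∀ x ∈ S, ∀ y ∈ S, ∀ a b, f x a = f y b → x = y ∧ a = b) :
    S.card * Fintype.card A ≤ Fintype.card X := by
  classical
  rw [← Finset.card_univ (α := A), ← Finset.card_product, ← Finset.card_univ (α := X)]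
  refine Finset.card_le_card_of_injOn (fun z => f z.1 z.2) (fun _ _ => Finset.mem_univ _) ?_
  intro z hz w hw e
  have hz' := (Finset.mem_product.1 (Finset.mem_coe.1 hz)).1
  have hw' := (Finset.mem_product.1 (Finset.mem_coe.1 hw)).1
  obtain ⟨h1, h2⟩ := hf _ hz' _ hw' _ _ e
  exact Prod.ext h1 h2

/-- each of the three sets has `|A| · m² · (|A| m)` elements, `m = |B| |C|`. -/
theorem card_two_eq (A B C : Type*) [Fintype A] [Fintype B] [Fintype C] [DecidableEq A] :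
    ((univ : Finset (((A × B) × C) × ((A × B) × C) × ((A × B) × C))).filter fun x =>
      x.1.1.1 = x.2.1.1.1 ∨ x.1.1.1 = x.2.2.1.1 ∨ x.2.1.1.1 = x.2.2.1.1).card * Fintype.card A
      ≤ 3 * Fintype.card ((A × B) × C) ^ 3 := by
  classical
  have hX : Fintype.card (((A × B) × C) × ((A × B) × C) × ((A × B) × C))
      = Fintype.card ((A × B) × C) ^ 3 := by
    rw [Fintype.card_prod _ (((A × B) × C) × ((A × B) × C)),
      Fintype.card_prod ((A × B) × C) ((A × B) × C)]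
    ring
  have h1 := Del_card_le (A := A)
    ((univ : Finset (((A × B) × C) × ((A × B) × C) × ((A × B) × C))).filter fun x =>
      x.1.1.1 = x.2.1.1.1)
    (fun x a => (x.1, ((a, x.2.1.1.2), x.2.1.2), x.2.2)) (by
      rintro ⟨⟨⟨a1, b1⟩, c1⟩, ⟨⟨a2, b2⟩, c2⟩, ⟨⟨a3, b3⟩, c3⟩⟩ hx
        ⟨⟨⟨a4, b4⟩, c4⟩, ⟨⟨a5, b5⟩, c5⟩, ⟨⟨a6, b6⟩, c6⟩⟩ hy a b e
      simp only [Finset.mem_filter, Finset.mem_univ, true_and] at hx hy
      simp only [Prod.mk.injEq] at e ⊢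
      grind)
  have h2 := Del_card_le (A := A)
    ((univ : Finset (((A × B) × C) × ((A × B) × C) × ((A × B) × C))).filter fun x =>
      x.1.1.1 = x.2.2.1.1)
    (fun x a => (x.1, x.2.1, ((a, x.2.2.1.2), x.2.2.2))) (by
      rintro ⟨⟨⟨a1, b1⟩, c1⟩, ⟨⟨a2, b2⟩, c2⟩, ⟨⟨a3, b3⟩, c3⟩⟩ hx
        ⟨⟨⟨a4, b4⟩, c4⟩, ⟨⟨a5, b5⟩, c5⟩, ⟨⟨a6, b6⟩, c6⟩⟩ hy a b e
      simp only [Finset.mem_filter, Finset.mem_univ, true_and] at hx hy
      simp only [Prod.mk.injEq] at e ⊢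
      grind)
  have h3 := Del_card_le (A := A)
    ((univ : Finset (((A × B) × C) × ((A × B) × C) × ((A × B) × C))).filter fun x =>
      x.2.1.1.1 = x.2.2.1.1)
    (fun x a => (x.1, x.2.1, ((a, x.2.2.1.2), x.2.2.2))) (by
      rintro ⟨⟨⟨a1, b1⟩, c1⟩, ⟨⟨a2, b2⟩, c2⟩, ⟨⟨a3, b3⟩, c3⟩⟩ hx
        ⟨⟨⟨a4, b4⟩, c4⟩, ⟨⟨a5, b5⟩, c5⟩, ⟨⟨a6, b6⟩, c6⟩⟩ hy a b e
      simp only [Finset.mem_filter, Finset.mem_univ, true_and] at hx hy
      simp only [Prod.mk.injEq] at e ⊢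
      grind)
  rw [hX] at h1 h2 h3
  rw [Finset.filter_or, Finset.filter_or]
  have h4 := Finset.card_union_le
    ((univ : Finset (((A × B) × C) × ((A × B) × C) × ((A × B) × C))).filter fun x =>
      x.1.1.1 = x.2.1.1.1)
    (((univ : Finset (((A × B) × C) × ((A × B) × C) × ((A × B) × C))).filter fun x =>
      x.1.1.1 = x.2.2.1.1) ∪
    ((univ : Finset (((A × B) × C) × ((A × B) × C) × ((A × B) × C))).filter fun x =>
      x.2.1.1.1 = x.2.2.1.1))
  have h5 := Finset.card_union_le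
    ((univ : Finset (((A × B) × C) × ((A × B) × C) × ((A × B) × C))).filter fun x =>
      x.1.1.1 = x.2.2.1.1)
    ((univ : Finset (((A × B) × C) × ((A × B) × C) × ((A × B) × C))).filter fun x =>
      x.2.1.1.1 = x.2.2.1.1)
  have h6 := Nat.mul_le_mul_right (Fintype.card A) (h4.trans (Nat.add_le_add_left h5 _))
  refine le_trans (le_of_eq ?_) (h6.trans ?_)
  · congr
  · rw [Nat.add_mul, Nat.add_mul]
    omega

/-- the set has `|L| |C|³` elements. -/
theorem card_all_eq (L C : Type*) [Fintype L] [Fintype C] [DecidableEq L] :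
    ((univ : Finset ((L × C) × (L × C) × (L × C))).filter fun x =>
      x.1.1 = x.2.1.1 ∧ x.1.1 = x.2.2.1).card * Fintype.card L ^ 2
      ≤ Fintype.card (L × C) ^ 3 := by
  classical
  have hX : Fintype.card ((L × C) × (L × C) × (L × C)) = Fintype.card (L × C) ^ 3 := by
    rw [Fintype.card_prod _ ((L × C) × (L × C)), Fintype.card_prod (L × C) (L × C)]
    ring
  have h1 := Del_card_le (A := L × L)
    ((univ : Finset ((L × C) × (L × C) × (L × C))).filter fun x =>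
      x.1.1 = x.2.1.1 ∧ x.1.1 = x.2.2.1)
    (fun x a => (x.1, (a.1, x.2.1.2), (a.2, x.2.2.2))) (by
      rintro ⟨⟨a1, c1⟩, ⟨a2, c2⟩, ⟨a3, c3⟩⟩ hx ⟨⟨a4, c4⟩, ⟨a5, c5⟩, ⟨a6, c6⟩⟩ hy ⟨a, a'⟩ ⟨b, b'⟩ e
      simp only [Finset.mem_filter, Finset.mem_univ, true_and] at hx hy
      simp only [Prod.mk.injEq] at e ⊢
      grind)
  rw [hX, Fintype.card_prod L L] at h1
  rw [sq]
  exact h1

end Crest.R32
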