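import Crest.Agent.R32.Defs

/-! Row 32. Putting a sum of `R` products into the top digit modulo `q`. -/

set_option autoImplicit false

namespace Crest.R32

open Finset Matrix

/-- the top position -/
def HH (R : ℕ) : ℕ := R * R + R

def mu0 (R p B q : ℕ) : ℕ := q / (p * B ^ HH R)

def Xd (R p B q : ℕ) (x : Fin R → ℤ) : ℤ :=
  ∑ r : Fin R, x r * ((mu0 R p B q : ℤ) * (B : ℤ) ^ (HH R - (r : ℕ) - R * (r : ℕ)))

def Yd (R B : ℕ) (y : Fin R → ℤ) : ℤ := ∑ r : Fin R, y r * (B : ℤ) ^ (r : ℕ)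

def Zd (R B : ℕ) (z : Fin R → ℤ) : ℤ := ∑ r : Fin R, z r * (B : ℤ) ^ (R * (r : ℕ))

open Finset Matrix

/-- `e < H`: take `E = μ₀ B^e`.  `e = H + h`, `1 ≤ h ≤ H`, `B = p B'`, `q = p B^H μ₀ + ρ`, `ρ < p B^H`:
`μ₀ B^e = B^(h-1) B' (q - ρ)`, take `E = -B^(h-1) B' ρ`. -/
theorem digit_term {R p B q : ℕ} (hp : 0 < p) (hB : 0 < B) (hpB : p ∣ B) {e : ℕ} (he : e ≤ 2 * HH R)
    (hne : e ≠ HH R) :
    ∃ E : ℤ, (q : ℤ) ∣ (mu0 R p B q : ℤ) * (B : ℤ) ^ e - E ∧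
      |E| ≤ (mu0 R p B q : ℤ) * (B : ℤ) ^ (HH R - 1) + (B : ℤ) ^ (2 * HH R) := by
  have hB1 : (1 : ℤ) ≤ B := by exact_mod_cast hB
  have hmu : (0 : ℤ) ≤ mu0 R p B q := Int.natCast_nonneg _
  rcases lt_or_gt_of_ne hne with hlt | hgt
  · refine ⟨(mu0 R p B q : ℤ) * (B : ℤ) ^ e, by simp, ?_⟩
    rw [abs_of_nonneg (by positivity)]
    have h1 : (B : ℤ) ^ e ≤ (B : ℤ) ^ (HH R - 1) := pow_le_pow_right₀ hB1 (by omega)
    have h2 : (0 : ℤ) ≤ (B : ℤ) ^ (2 * HH R) := by positivity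
    nlinarith [mul_le_mul_of_nonneg_left h1 hmu]
  · obtain ⟨h, rfl⟩ : ∃ h, e = HH R + h + 1 := ⟨e - HH R - 1, by omega⟩
    obtain ⟨B', hB'⟩ := hpB
    have hpos : 0 < p * B ^ HH R := by positivity
    have hdiv : p * B ^ HH R * mu0 R p B q + q % (p * B ^ HH R) = q := Nat.div_add_mod q _
    have hρ : q % (p * B ^ HH R) < p * B ^ HH R := Nat.mod_lt _ hpos
    generalize q % (p * B ^ HH R) = ρ at hdiv hρ
    have hdiv' : (p : ℤ) * (B : ℤ) ^ HH R * mu0 R p B q + ρ = q := by exact_mod_cast hdiv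
    have hρ' : (ρ : ℤ) ≤ (p : ℤ) * (B : ℤ) ^ HH R := by exact_mod_cast hρ.le
    have hB'' : (B : ℤ) = p * B' := by exact_mod_cast hB'
    refine ⟨-((B : ℤ) ^ h * B' * ρ), ⟨(B : ℤ) ^ h * B', ?_⟩, ?_⟩
    · rw [← hdiv', pow_succ, pow_add]
      linear_combination (mu0 R p B q : ℤ) * (B : ℤ) ^ HH R * (B : ℤ) ^ h * hB''
    · rw [abs_neg, abs_of_nonneg (by positivity)]
      have h1 : (B : ℤ) ^ h * B' * ρ ≤ (B : ℤ) ^ h * B' * ((p : ℤ) * (B : ℤ) ^ HH R) :=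
        mul_le_mul_of_nonneg_left hρ' (by positivity)
      have h2 : (B : ℤ) ^ h * B' * ((p : ℤ) * (B : ℤ) ^ HH R) = (B : ℤ) ^ (HH R + h + 1) := by
        rw [pow_succ, pow_add]
        linear_combination -((B : ℤ) ^ HH R * (B : ℤ) ^ h) * hB''
      have h3 : (B : ℤ) ^ (HH R + h + 1) ≤ (B : ℤ) ^ (2 * HH R) := pow_le_pow_right₀ hB1 he
      have h4 : (0 : ℤ) ≤ (mu0 R p B q : ℤ) * (B : ℤ) ^ (HH R - 1) := by positivity
      linarith

theorem Digit_exp {R a b c : ℕ} (ha : a < R) (hb : b < R) (hc : c < R) :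
    (HH R - a - R * a) + b + R * c ≤ 2 * HH R ∧
      ((HH R - a - R * a) + b + R * c = HH R ↔ a = b ∧ a = c) := by
  have h1 : R * a + R ≤ R * R := by nlinarith
  have h2 : R * c + R ≤ R * R := by nlinarith
  unfold HH
  refine ⟨by omega, ⟨fun h => ?_, ?_⟩⟩
  · have h3 : a + R * a = b + R * c := by omega
    have h4 : (a + R * a) % R = (b + R * c) % R := by rw [h3]
    rw [Nat.add_mul_mod_self_left, Nat.add_mul_mod_self_left, Nat.mod_eq_of_lt ha,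
      Nat.mod_eq_of_lt hb] at h4
    refine ⟨h4, Nat.eq_of_mul_eq_mul_left (by omega : 0 < R) (by omega)⟩
  · rintro ⟨rfl, rfl⟩
    omega

/-- Expand the product as a sum over `(r, r', r'')` with exponent `e = (H - r - R r) + r' + R r'' ≤ 2H`;
`e = H` iff `r = r' = r''`; use `digit_term` (`choose`) for the other terms. -/
theorem digit_prod {R p B q : ℕ} (hp : 0 < p) (hB : 0 < B) (hpB : p ∣ B) (M : ℤ) (x y z : Fin R → ℤ)
    (hx : ∀ r, |x r| ≤ M) (hy : ∀ r, |y r| ≤ M) (hz : ∀ r, |z r| ≤ M) :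
    ∃ e : ℤ, (q : ℤ) ∣ Xd R p B q x * Yd R B y * Zd R B z
        - ((mu0 R p B q : ℤ) * (B : ℤ) ^ HH R * ∑ r, x r * y r * z r + e) ∧
      |e| ≤ (R : ℤ) ^ 3 * M ^ 3 *
        ((mu0 R p B q : ℤ) * (B : ℤ) ^ (HH R - 1) + (B : ℤ) ^ (2 * HH R)) := by
  classical
  set μ : ℤ := (mu0 R p B q : ℤ) with hμ
  set D : ℤ := μ * (B : ℤ) ^ (HH R - 1) + (B : ℤ) ^ (2 * HH R) with hD
  have hD0 : 0 ≤ D := by
    have : 0 ≤ μ := Int.natCast_nonneg _
    positivity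
  have key : ∀ a b c : Fin R, ∃ E : ℤ,
      (q : ℤ) ∣ μ * (B : ℤ) ^ ((HH R - (a : ℕ) - R * (a : ℕ)) + (b : ℕ) + R * (c : ℕ)) -
        ((if a = b ∧ a = c then μ * (B : ℤ) ^ HH R else 0) + E) ∧ |E| ≤ D := by
    intro a b c
    obtain ⟨h1, h2⟩ := Digit_exp a.2 b.2 c.2
    by_cases h : a = b ∧ a = c
    · refine ⟨0, ?_, by simpa using hD0⟩
      rw [if_pos h, h2.2 ⟨congrArg Fin.val h.1, congrArg Fin.val h.2⟩]
      simp
    · obtain ⟨E, hE1, hE2⟩ := digit_term (q := q) hp hB hpB h1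
        (fun h3 => h ⟨Fin.ext (h2.1 h3).1, Fin.ext (h2.1 h3).2⟩)
      exact ⟨E, by rw [if_neg h, zero_add]; exact hE1, hE2⟩
  choose E hE1 hE2 using key
  refine ⟨∑ a, ∑ b, ∑ c, x a * y b * z c * E a b c, ?_, ?_⟩
  · have e1 : Xd R p B q x * Yd R B y * Zd R B z = ∑ a, ∑ b, ∑ c, x a * y b * z c *
        (μ * (B : ℤ) ^ ((HH R - (a : ℕ) - R * (a : ℕ)) + (b : ℕ) + R * (c : ℕ))) := by
      unfold Xd Yd Zd
      rw [Finset.sum_mul, Finset.sum_mul]
      refine Finset.sum_congr rfl fun a _ => ?_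
      rw [Finset.mul_sum (a := x a * _), Finset.sum_mul]
      refine Finset.sum_congr rfl fun b _ => ?_
      rw [Finset.mul_sum]
      refine Finset.sum_congr rfl fun c _ => ?_
      rw [pow_add, pow_add, hμ]
      ring
    have e2 : μ * (B : ℤ) ^ HH R * ∑ r, x r * y r * z r = ∑ a, ∑ b, ∑ c, x a * y b * z c *
        (if a = b ∧ a = c then μ * (B : ℤ) ^ HH R else 0) := by
      rw [Finset.mul_sum]
      refine Finset.sum_congr rfl fun a _ => ?_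
      rw [Finset.sum_eq_single a, Finset.sum_eq_single a]
      · simp only [and_self, if_true]; ring
      · intro c _ hc
        rw [if_neg (fun h => hc h.2.symm), mul_zero]
      · simp
      · intro b _ hb
        refine Finset.sum_eq_zero fun c _ => ?_
        rw [if_neg (fun h => hb h.1.symm), mul_zero]
      · simp
    rw [e1, e2, ← Finset.sum_add_distrib, ← Finset.sum_sub_distrib]
    refine Finset.dvd_sum fun a _ => ?_
    rw [← Finset.sum_add_distrib, ← Finset.sum_sub_distrib]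
    refine Finset.dvd_sum fun b _ => ?_
    rw [← Finset.sum_add_distrib, ← Finset.sum_sub_distrib]
    refine Finset.dvd_sum fun c _ => ?_
    rw [← mul_add, ← mul_sub]
    exact Dvd.dvd.mul_left (hE1 a b c) _
  · have hb : ∀ a b c : Fin R, |x a * y b * z c * E a b c| ≤ M ^ 3 * D := by
      intro a b c
      have hM : 0 ≤ M := (abs_nonneg _).trans (hx a)
      rw [abs_mul, abs_mul, abs_mul]
      calc |x a| * |y b| * |z c| * |E a b c| ≤ M * M * M * D := by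
            gcongr
            exacts [hx a, hy b, hz c, hE2 a b c]
        _ = M ^ 3 * D := by ring
    calc |∑ a, ∑ b, ∑ c, x a * y b * z c * E a b c|
        ≤ ∑ a, |∑ b, ∑ c, x a * y b * z c * E a b c| := Finset.abs_sum_le_sum_abs _ _
      _ ≤ ∑ a : Fin R, ∑ b : Fin R, ∑ c : Fin R, M ^ 3 * D := by
          refine Finset.sum_le_sum fun a _ => (Finset.abs_sum_le_sum_abs _ _).trans ?_
          refine Finset.sum_le_sum fun b _ => (Finset.abs_sum_le_sum_abs _ _).trans ?_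
          exact Finset.sum_le_sum fun c _ => hb a b c
      _ = (R : ℤ) ^ 3 * M ^ 3 * D := by
          simp only [Finset.sum_const, Finset.card_univ, Fintype.card_fin, nsmul_eq_mul]
          ring

theorem digit_abs_sum_le {R B n : ℕ} (hB : 0 < B) (M : ℤ) (y : Fin R → ℤ) (hy : ∀ r, |y r| ≤ M)
    (e : Fin R → ℕ) (he : ∀ r, e r ≤ n) :
    |∑ r : Fin R, y r * (B : ℤ) ^ (e r)| ≤ R * M * (B : ℤ) ^ n := by
  have hB1 : (1 : ℤ) ≤ B := by exact_mod_cast hB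
  calc _ ≤ ∑ r : Fin R, |y r * (B : ℤ) ^ (e r)| := Finset.abs_sum_le_sum_abs _ _
    _ ≤ ∑ _r : Fin R, M * (B : ℤ) ^ n := Finset.sum_le_sum fun r _ => by
        rw [abs_mul, abs_of_nonneg (by positivity : (0 : ℤ) ≤ (B : ℤ) ^ (e r))]
        exact mul_le_mul (hy r) (pow_le_pow_right₀ hB1 (he r)) (by positivity)
          ((abs_nonneg _).trans (hy r))
    _ = _ := by simp [mul_assoc]

theorem digit_dvd_sum_sub {R B : ℕ} [NeZero R] (y : Fin R → ℤ) (e : Fin R → ℕ) (he0 : e 0 = 0)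
    (he : ∀ r, r ≠ 0 → e r ≠ 0) : (B : ℤ) ∣ ∑ r : Fin R, y r * (B : ℤ) ^ (e r) - y 0 := by
  rw [← Finset.add_sum_erase _ _ (Finset.mem_univ (0 : Fin R)), he0, pow_zero, mul_one,
    add_sub_cancel_left]
  exact Finset.dvd_sum fun r hr =>
    (dvd_pow_self _ (he r (Finset.ne_of_mem_erase hr))).mul_left _

theorem abs_Yd_le {R B : ℕ} (hB : 0 < B) (M : ℤ) (y : Fin R → ℤ) (hy : ∀ r, |y r| ≤ M) :
    |Yd R B y| ≤ R * M * (B : ℤ) ^ R := by
  exact digit_abs_sum_le hB M y hy (fun r => (r : ℕ)) fun r => r.2.le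

theorem abs_Zd_le {R B : ℕ} (hB : 0 < B) (M : ℤ) (z : Fin R → ℤ) (hz : ∀ r, |z r| ≤ M) :
    |Zd R B z| ≤ R * M * (B : ℤ) ^ (R * R) := by
  exact digit_abs_sum_le hB M z hz (fun r => R * (r : ℕ)) fun r => Nat.mul_le_mul_left _ r.2.le

theorem dvd_Yd_sub {R B : ℕ} [NeZero R] (y : Fin R → ℤ) : (B : ℤ) ∣ Yd R B y - y 0 := by
  exact digit_dvd_sum_sub y (fun r => (r : ℕ)) (by simp) fun r hr => by simpa using hr

theorem dvd_Zd_sub {R B : ℕ} [NeZero R] (z : Fin R → ℤ) : (B : ℤ) ∣ Zd R B z - z 0 := by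
  exact digit_dvd_sum_sub z (fun r => R * (r : ℕ)) (by simp) fun r hr =>
    Nat.mul_ne_zero (NeZero.ne R) (by simpa using hr)

end Crest.R32
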