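import Crest.Agent.R32.Digit

/-! Row 32. The three properties of the digit vectors (`B = p⁸`, digits `≤ p²`). -/

set_option autoImplicit false

namespace Crest.R32

open Finset Matrix

theorem far_final {P q μ f e t ρ : ℤ} (hP : 0 ≤ P) (hμ : 0 ≤ μ) (hq : q = P * μ + ρ)
    (hρ0 : 0 ≤ ρ) (hρ : ρ ≤ P * μ) (hf1 : 1 ≤ f) (hf2 : f + 1 ≤ P) (he : 2 * |e| ≤ μ)
    (ht : q ∣ t - (f * μ + e)) : q ≤ 4 * P * |t| := by
  obtain ⟨k, hk⟩ := ht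
  have h1 := mul_le_mul_of_nonneg_right hf1 hμ
  have h2 := mul_le_mul_of_nonneg_right hf2 hμ
  have hq0 : 0 ≤ q := by linarith
  have h3 := le_abs_self e
  have h4 := neg_abs_le e
  have h5 : μ ≤ 2 * |t| := by
    rcases le_or_gt 0 k with h | h
    · have := mul_nonneg hq0 h
      have := le_abs_self t
      linarith
    · have := mul_le_mul_of_nonneg_left (show k ≤ -1 by omega) hq0
      have := neg_abs_le t
      linarith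
  have := mul_le_mul_of_nonneg_left h5 hP
  linarith

theorem far_bound {R P A μ0 : ℤ} (hR : 1 ≤ R) (hp : 48 * R ^ 3 ≤ P) (hA : 1 ≤ A)
    (hμ : P ^ 7 * (A * P ^ 8 * P ^ 8) ≤ μ0) :
    2 * (6 * (R ^ 3 * (P ^ 2) ^ 3 * (μ0 * A + (A * P ^ 8) ^ 2)) +
      6 * (R ^ 2 * P ^ 4 * ((A * P ^ 8) ^ 2 * P ^ 8)) + P * (A * P ^ 8) * (6 * (R * P ^ 6))) ≤
      μ0 * (A * P ^ 8) := by
  have hR3 : 1 ≤ R ^ 3 := one_le_pow₀ hR
  have hP : 1 ≤ P := by linarith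
  have hP0 : 0 < P := by linarith
  have hA0 : 0 < A := by linarith
  have hμ0 : 0 ≤ μ0 := le_trans (by positivity) hμ
  have r2 : 48 * R ^ 2 ≤ P ^ 3 := by
    have := pow_le_pow_right₀ hR (show 2 ≤ 3 by norm_num)
    have := le_self_pow₀ hP (show 3 ≠ 0 by norm_num)
    linarith
  have r1 : 48 * R ≤ P := by
    have := le_self_pow₀ hR (show 3 ≠ 0 by norm_num)
    linarith
  have r3 : 48 * R ^ 3 ≤ P ^ 2 := hp.trans (le_self_pow₀ hP (by norm_num))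
  have r4 : 48 * R ^ 3 ≤ P ^ 9 := hp.trans (le_self_pow₀ hP (by norm_num))
  have r5 : 48 * R ≤ P ^ 16 * A := by
    have := le_self_pow₀ hP (show 16 ≠ 0 by norm_num)
    have := mul_le_mul_of_nonneg_left hA (show 0 ≤ P ^ 16 by positivity)
    linarith
  have m := mul_le_mul_of_nonneg_right hμ (show 0 ≤ A * P ^ 8 by positivity)
  have t1 := mul_le_mul_of_nonneg_right r3 (show 0 ≤ P ^ 6 * (μ0 * A) by positivity)
  have t2 := mul_le_mul_of_nonneg_right r4 (show 0 ≤ P ^ 6 * (A * P ^ 8) ^ 2 by positivity)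
  have t3 := mul_le_mul_of_nonneg_right r2
    (show 0 ≤ P ^ 4 * ((A * P ^ 8) ^ 2 * P ^ 8) by positivity)
  have t4 := mul_le_mul_of_nonneg_right r5 (show 0 ≤ P ^ 7 * (A * P ^ 8) by positivity)
  linarith

theorem far_six {a b c d e f M : ℤ} (ha : |a| ≤ M) (hb : |b| ≤ M) (hc : |c| ≤ M) (hd : |d| ≤ M)
    (he : |e| ≤ M) (hf : |f| ≤ M) : |a - b + c - d + e - f| ≤ 6 * M := by
  rw [abs_le] at *
  constructor <;> linarith [ha.1, ha.2, hb.1, hb.2, hc.1, hc.2, hd.1, hd.2, he.1, he.2, hf.1, hf.2]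

/-- Write `B = p⁸`, `H = HH R`, `μ₀ = mu0 R p B q`, `μ = μ₀ B^H`, `F` = the sum in `hF`.  Expand the determinant (`det3_def`):
six products `Xd * Yd * Zd` (`digit_prod`, total `μ F + e₁`) and six products `ξ * Yd * Zd` (`e₂`, `abs_Yd_le`, `abs_Zd_le`).
`F = p u + f`, `1 ≤ f ≤ p - 1`, `|u| ≤ |F| ≤ 6 R p⁶`, `q = p μ + ρ`, `0 ≤ ρ < p B^H`, so `μ F ≡ f μ - u ρ`.
From `hq`, `μ₀ ≥ p⁷ B^(H+1)`; each of `6R³p⁶ μ₀ B^(H-1)`, `6R³p⁶ B^(2H)`, `6R²p⁴ B^(2H+1)`, `6R p⁷ B^H` is `≤ μ/8`.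
So `t ≡ fμ + e`, `|e| ≤ μ/2`, `μ ≤ fμ ≤ q - μ`, hence `μ ≤ 2|t|`; and `q ≤ 2pμ`. -/
theorem gadget_far {R p q : ℕ} (hR : 1 ≤ R) (hp : 48 * R ^ 3 ≤ p)
    (hq : (p ^ 8) ^ (2 * HH R + 2) ≤ q) (x y z : Fin 3 → Fin R → ℤ) (ξ : Fin 3 → ℤ)
    (hx : ∀ i r, |x i r| ≤ (p : ℤ) ^ 2) (hy : ∀ i r, |y i r| ≤ (p : ℤ) ^ 2)
    (hz : ∀ i r, |z i r| ≤ (p : ℤ) ^ 2) (hξ : ∀ i, |ξ i| ≤ ((p : ℤ) ^ 8) ^ (HH R + 1))
    (hF : ¬ (p : ℤ) ∣ ∑ r, det3 ![x 0 r, y 0 r, z 0 r] ![x 1 r, y 1 r, z 1 r] ![x 2 r, y 2 r, z 2 r])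
    (t : ℤ)
    (ht : (q : ℤ) ∣ t - det3
      ![Xd R p (p ^ 8) q (x 0) + ξ 0, Yd R (p ^ 8) (y 0), Zd R (p ^ 8) (z 0)]
      ![Xd R p (p ^ 8) q (x 1) + ξ 1, Yd R (p ^ 8) (y 1), Zd R (p ^ 8) (z 1)]
      ![Xd R p (p ^ 8) q (x 2) + ξ 2, Yd R (p ^ 8) (y 2), Zd R (p ^ 8) (z 2)]) :
    (q : ℤ) ≤ 4 * p * |t| := by
  have hp0 : 0 < p := lt_of_lt_of_le (by positivity) hp
  have hB : 0 < p ^ 8 := by positivity
  have hP0 : (0 : ℤ) < p := by exact_mod_cast hp0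
  choose e he1 he2 using fun i j k : Fin 3 => digit_prod (R := R) (q := q) hp0 hB
    (dvd_pow_self p (by norm_num)) ((p : ℤ) ^ 2) (x i) (y j) (z k) (hx i) (hy j) (hz k)
  obtain ⟨h, hh⟩ : ∃ h, HH R = h + 1 := ⟨HH R - 1, by unfold HH; omega⟩
  have hRR : R + R * R = h + 1 := by rw [← hh, HH, add_comm]
  obtain ⟨A, hA⟩ : ∃ A : ℤ, A = ((p : ℤ) ^ 8) ^ h := ⟨_, rfl⟩
  have hA1 : 1 ≤ A := hA ▸ one_le_pow₀ (one_le_pow₀ hP0)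
  have hμ : (p : ℤ) ^ 7 * (A * p ^ 8 * p ^ 8) ≤ mu0 R p (p ^ 8) q := by
    have : p ^ 7 * ((p ^ 8) ^ h * p ^ 8 * p ^ 8) ≤ mu0 R p (p ^ 8) q := by
      rw [mu0, Nat.le_div_iff_mul_le (by positivity), hh]
      refine le_trans (le_of_eq ?_) hq
      rw [hh]
      ring
    rw [hA]
    exact_mod_cast this
  obtain ⟨ρ, hρ0, hρ1, hρ⟩ : ∃ ρ : ℤ, 0 ≤ ρ ∧ ρ ≤ p * (A * p ^ 8) ∧
      (q : ℤ) = p * (mu0 R p (p ^ 8) q * (A * p ^ 8)) + ρ := by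
    refine ⟨(q % (p * (p ^ 8) ^ HH R) : ℕ), by positivity, ?_, ?_⟩
    · have := (Nat.mod_lt q (show 0 < p * (p ^ 8) ^ HH R by positivity)).le
      rw [hA, ← pow_succ, ← hh]
      exact_mod_cast this
    · have := Nat.div_add_mod q (p * (p ^ 8) ^ HH R)
      rw [hA, ← pow_succ, ← hh, mu0, mul_left_comm, mul_comm]
      exact_mod_cast this.symm
  have hξ' : ∀ i j k, |ξ i * Yd R (p ^ 8) (y j) * Zd R (p ^ 8) (z k)| ≤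
      (R : ℤ) ^ 2 * p ^ 4 * ((A * p ^ 8) ^ 2 * p ^ 8) := fun i j k => by
    rw [abs_mul, abs_mul]
    refine (mul_le_mul (mul_le_mul (hξ i) (abs_Yd_le hB _ _ (hy j)) (abs_nonneg _) (by positivity))
      (abs_Zd_le hB _ _ (hz k)) (abs_nonneg _) (by positivity)).trans (le_of_eq ?_)
    have e1 : ((p : ℤ) ^ 8) ^ R * ((p : ℤ) ^ 8) ^ (R * R) = A * p ^ 8 := by
      rw [← pow_add, hRR, pow_succ, hA]
    have e2 : ((p : ℤ) ^ 8) ^ (HH R + 1) = A * p ^ 8 * p ^ 8 := by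
      rw [hh, pow_succ, pow_succ, hA]
    push_cast
    rw [e2]
    linear_combination (A * p ^ 8 * p ^ 8 * (R : ℤ) ^ 2 * p ^ 4) * e1
  have hS : ∀ i j k, |∑ r, x i r * y j r * z k r| ≤ (R : ℤ) * p ^ 6 := fun i j k => by
    refine (Finset.abs_sum_le_sum_abs _ _).trans ((Finset.sum_le_card_nsmul _ _ ((p : ℤ) ^ 6)
      fun r _ => ?_).trans (by simp))
    rw [abs_mul, abs_mul]
    exact (mul_le_mul (mul_le_mul (hx i r) (hy j r) (abs_nonneg _) (by positivity)) (hz k r)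
      (abs_nonneg _) (by positivity)).trans (le_of_eq (by ring))
  have e3 : (((p ^ 8 : ℕ) : ℤ)) ^ HH R = A * p ^ 8 := by
    rw [hh, pow_succ, hA, Nat.cast_pow]
  have e4 : (((p ^ 8 : ℕ) : ℤ)) ^ (HH R - 1) = A := by
    rw [hh, Nat.add_sub_cancel, hA, Nat.cast_pow]
  have e5 : (((p ^ 8 : ℕ) : ℤ)) ^ (2 * HH R) = (A * p ^ 8) ^ 2 := by
    rw [mul_comm 2, pow_mul, e3]
  simp only [e3, e4, e5] at he1 he2
  have hF' : ∑ r, det3 ![x 0 r, y 0 r, z 0 r] ![x 1 r, y 1 r, z 1 r] ![x 2 r, y 2 r, z 2 r] =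
      (∑ r, x 2 r * y 0 r * z 1 r) - (∑ r, x 2 r * y 1 r * z 0 r) + (∑ r, x 1 r * y 2 r * z 0 r) -
      (∑ r, x 0 r * y 2 r * z 1 r) + (∑ r, x 0 r * y 1 r * z 2 r) -
      (∑ r, x 1 r * y 0 r * z 2 r) := by
    simp only [← Finset.sum_add_distrib, ← Finset.sum_sub_distrib]
    refine Finset.sum_congr rfl fun r _ => ?_
    simp only [det3_def, Matrix.cons_val_zero, Matrix.cons_val_one, Matrix.cons_val]
    ring
  rw [hF'] at hF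
  have b1 := far_six (he2 2 0 1) (he2 2 1 0) (he2 1 2 0) (he2 0 2 1) (he2 0 1 2) (he2 1 0 2)
  have b2 := far_six (hξ' 2 0 1) (hξ' 2 1 0) (hξ' 1 2 0) (hξ' 0 2 1) (hξ' 0 1 2) (hξ' 1 0 2)
  have b3 := far_six (hS 2 0 1) (hS 2 1 0) (hS 1 2 0) (hS 0 2 1) (hS 0 1 2) (hS 1 0 2)
  have d1 := ((((((ht.add (he1 2 0 1)).sub (he1 2 1 0)).add (he1 1 2 0)).sub (he1 0 2 1)).add
    (he1 0 1 2)).sub (he1 1 0 2))
  simp only [det3_def, Matrix.cons_val_zero, Matrix.cons_val_one, Matrix.cons_val] at d1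
  obtain ⟨F, hFd⟩ : ∃ F, F = (∑ r, x 2 r * y 0 r * z 1 r) - (∑ r, x 2 r * y 1 r * z 0 r) +
      (∑ r, x 1 r * y 2 r * z 0 r) - (∑ r, x 0 r * y 2 r * z 1 r) + (∑ r, x 0 r * y 1 r * z 2 r) -
      (∑ r, x 1 r * y 0 r * z 2 r) := ⟨_, rfl⟩
  rw [← hFd] at hF b3
  have f0 := Int.mul_ediv_add_emod F p
  have f1 := Int.emod_nonneg F hP0.ne'
  have f2 := Int.emod_lt_of_pos F hP0
  have f3 : F % p ≠ 0 := fun h0 => hF (Int.dvd_of_emod_eq_zero h0)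
  have f4 : |ρ * (F / p)| ≤ p * (A * p ^ 8) * (6 * (R * p ^ 6)) := by
    rw [abs_mul, abs_of_nonneg hρ0]
    exact mul_le_mul hρ1 ((Int.abs_ediv_le_abs F p).trans b3) (abs_nonneg _) (by positivity)
  have hb := far_bound (R := R) (P := p) (by exact_mod_cast hR) (by exact_mod_cast hp) hA1 hμ
  have hμ1 : (1 : ℤ) ≤ mu0 R p (p ^ 8) q :=
    le_trans (Int.add_one_le_of_lt (show 0 < _ by positivity)) hμ
  generalize (mu0 R p (p ^ 8) q : ℤ) = μ0 at *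
  refine far_final (f := F % p) hP0.le (by positivity) hρ hρ0 ?_ (by omega) (by omega)
    (e := (e 2 0 1 - e 2 1 0 + e 1 2 0 - e 0 2 1 + e 0 1 2 - e 1 0 2) +
      (ξ 2 * Yd R (p ^ 8) (y 0) * Zd R (p ^ 8) (z 1) - ξ 2 * Yd R (p ^ 8) (y 1) * Zd R (p ^ 8) (z 0) +
        ξ 1 * Yd R (p ^ 8) (y 2) * Zd R (p ^ 8) (z 0) -
        ξ 0 * Yd R (p ^ 8) (y 2) * Zd R (p ^ 8) (z 1) +
        ξ 0 * Yd R (p ^ 8) (y 1) * Zd R (p ^ 8) (z 2) -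
        ξ 1 * Yd R (p ^ 8) (y 0) * Zd R (p ^ 8) (z 2)) - ρ * (F / p)) ?_ ?_
  · exact hρ1.trans (mul_le_mul_of_nonneg_left (le_mul_of_one_le_left (by positivity) hμ1) hP0.le)
  · refine le_trans (mul_le_mul_of_nonneg_left ?_ (by norm_num)) hb
    exact (abs_sub _ _).trans (add_le_add ((abs_add_le _ _).trans (add_le_add b1 b2)) f4)
  · have d2 := d1.add (dvd_mul_right (q : ℤ) (F / p))
    refine (congrArg (fun w : ℤ => (q : ℤ) ∣ w) ?_).mp d2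
    linear_combination (μ0 * (A * p ^ 8)) * hFd + (μ0 * (A * p ^ 8)) * f0 + (F / p) * hρ

theorem far_basic {R p q : ℕ} [NeZero R] (hp : 48 * R ^ 3 ≤ p)
    (hq : (p ^ 8) ^ (2 * HH R + 2) ≤ q) :
    (2 : ℤ) ≤ p ∧ 2 * (R : ℤ) ^ 2 ≤ p ∧ (1 : ℤ) ≤ R ∧
      ((p ^ 8 : ℕ) : ℤ) ^ HH R * (p : ℤ) ^ 8 ≤ q := by
  have hR : 1 ≤ R := Nat.one_le_iff_ne_zero.2 (NeZero.ne R)
  have h3 : R ^ 2 ≤ R ^ 3 := Nat.pow_le_pow_right hR (by norm_num)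
  have h2 : 1 ≤ R ^ 2 := Nat.one_le_pow _ _ hR
  have hp1 : 1 ≤ p ^ 8 := Nat.one_le_pow _ _ (by omega)
  refine ⟨by exact_mod_cast (by omega : 2 ≤ p), by exact_mod_cast (by omega : 2 * R ^ 2 ≤ p),
    by exact_mod_cast hR, ?_⟩
  have : (p ^ 8) ^ HH R * p ^ 8 ≤ q := by
    rw [← pow_succ]
    exact (Nat.pow_le_pow_right hp1 (by omega)).trans hq
  exact_mod_cast this

/-- The number is `≡ y 0 - y' 0 (mod p⁸)`, `0 < |y 0 - y' 0| ≤ 2p² < p⁸`, so it is non-zero; its size is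
`≤ 2R²p⁴ B^H < q`. -/
theorem gadget_ind {R p q : ℕ} [NeZero R] (hp : 48 * R ^ 3 ≤ p)
    (hq : (p ^ 8) ^ (2 * HH R + 2) ≤ q) (y z y' z' : Fin R → ℤ)
    (hy : ∀ r, |y r| ≤ (p : ℤ) ^ 2) (hz : ∀ r, |z r| ≤ (p : ℤ) ^ 2)
    (hy' : ∀ r, |y' r| ≤ (p : ℤ) ^ 2) (hz' : ∀ r, |z' r| ≤ (p : ℤ) ^ 2)
    (h0 : z 0 = 1) (h0' : z' 0 = 1) (hne : y 0 ≠ y' 0) :
    ¬ (q : ℤ) ∣ Yd R (p ^ 8) y * Zd R (p ^ 8) z' - Zd R (p ^ 8) z * Yd R (p ^ 8) y' := by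
  obtain ⟨h2, hR2, hR1, hqq⟩ := far_basic hp hq
  have hB : 0 < p ^ 8 := by
    have : 0 < p := by exact_mod_cast (by omega : (0 : ℤ) < p)
    positivity
  intro hd
  have a1 := abs_Yd_le hB _ y hy
  have a2 := abs_Zd_le hB _ z' hz'
  have a3 := abs_Zd_le hB _ z hz
  have a4 := abs_Yd_le hB _ y' hy'
  have hBz : (0 : ℤ) < ((p ^ 8 : ℕ) : ℤ) := by exact_mod_cast hB
  have hH : (0 : ℤ) < ((p ^ 8 : ℕ) : ℤ) ^ HH R := by positivity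
  have hlt : |Yd R (p ^ 8) y * Zd R (p ^ 8) z' - Zd R (p ^ 8) z * Yd R (p ^ 8) y'| < q := by
    calc _ ≤ |Yd R (p ^ 8) y| * |Zd R (p ^ 8) z'| + |Zd R (p ^ 8) z| * |Yd R (p ^ 8) y'| := by
          rw [← abs_mul, ← abs_mul]; exact abs_sub _ _
      _ ≤ (R * (p : ℤ) ^ 2 * ((p ^ 8 : ℕ) : ℤ) ^ R) * (R * (p : ℤ) ^ 2 * ((p ^ 8 : ℕ) : ℤ) ^ (R * R)) +
          (R * (p : ℤ) ^ 2 * ((p ^ 8 : ℕ) : ℤ) ^ (R * R)) * (R * (p : ℤ) ^ 2 * ((p ^ 8 : ℕ) : ℤ) ^ R) := by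
          gcongr
      _ = ((p ^ 8 : ℕ) : ℤ) ^ HH R * ((2 * (R : ℤ) ^ 2) * (p : ℤ) ^ 4) := by
          rw [HH, pow_add]; ring
      _ ≤ ((p ^ 8 : ℕ) : ℤ) ^ HH R * ((p : ℤ) * (p : ℤ) ^ 4) := by gcongr
      _ < ((p ^ 8 : ℕ) : ℤ) ^ HH R * (p : ℤ) ^ 8 := by
          rw [← pow_succ']
          exact mul_lt_mul_of_pos_left (pow_lt_pow_right₀ (by omega) (by norm_num)) hH
      _ ≤ q := hqq
  have h0N := Int.eq_zero_of_abs_lt_dvd hd hlt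
  have d1 := dvd_Yd_sub (B := p ^ 8) y
  have d2 := dvd_Zd_sub (B := p ^ 8) z'
  have d3 := dvd_Zd_sub (B := p ^ 8) z
  have d4 := dvd_Yd_sub (B := p ^ 8) y'
  rw [h0'] at d2
  rw [h0] at d3
  have d5 : ((p ^ 8 : ℕ) : ℤ) ∣ y 0 - y' 0 := by
    have e : y 0 - y' 0 = -((Yd R (p ^ 8) y - y 0) * Zd R (p ^ 8) z') - y 0 * (Zd R (p ^ 8) z' - 1) +
        (Zd R (p ^ 8) z - 1) * Yd R (p ^ 8) y' + (Yd R (p ^ 8) y' - y' 0) := by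
      linear_combination h0N
    rw [e]
    exact ((((d1.mul_right _).neg_right).sub (d2.mul_left _)).add (d3.mul_right _)).add d4
  have hlt2 : |y 0 - y' 0| < ((p ^ 8 : ℕ) : ℤ) := by
    calc _ ≤ |y 0| + |y' 0| := abs_sub _ _
      _ ≤ (p : ℤ) ^ 2 + (p : ℤ) ^ 2 := add_le_add (hy 0) (hy' 0)
      _ = 2 * (p : ℤ) ^ 2 := by ring
      _ ≤ (p : ℤ) * (p : ℤ) ^ 2 := by gcongr
      _ < (p : ℤ) ^ 8 := by
          rw [← pow_succ']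
          exact pow_lt_pow_right₀ (by omega) (by norm_num)
      _ = _ := by push_cast; rfl
  exact hne (sub_eq_zero.1 (Int.eq_zero_of_abs_lt_dvd d5 hlt2))

theorem gadget_zne {R p q : ℕ} [NeZero R] (hp : 48 * R ^ 3 ≤ p)
    (hq : (p ^ 8) ^ (2 * HH R + 2) ≤ q) (z : Fin R → ℤ) (hz : ∀ r, |z r| ≤ (p : ℤ) ^ 2)
    (h0 : z 0 = 1) : ¬ (q : ℤ) ∣ Zd R (p ^ 8) z := by
  obtain ⟨h2, hR2, hR1, hqq⟩ := far_basic hp hq
  have hB : 0 < p ^ 8 := by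
    have : 0 < p := by exact_mod_cast (by omega : (0 : ℤ) < p)
    positivity
  intro hd
  have a3 := abs_Zd_le hB _ z hz
  have hBz : (1 : ℤ) ≤ ((p ^ 8 : ℕ) : ℤ) := by exact_mod_cast hB
  have hH : (0 : ℤ) < ((p ^ 8 : ℕ) : ℤ) ^ HH R := by positivity
  have hRp : (R : ℤ) ≤ p := by nlinarith
  have hlt : |Zd R (p ^ 8) z| < q := by
    calc _ ≤ R * (p : ℤ) ^ 2 * ((p ^ 8 : ℕ) : ℤ) ^ (R * R) := a3
      _ ≤ p * (p : ℤ) ^ 2 * ((p ^ 8 : ℕ) : ℤ) ^ HH R :=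
          mul_le_mul (by gcongr) (pow_le_pow_right₀ hBz (by rw [HH]; omega)) (by positivity)
            (by positivity)
      _ < (p : ℤ) ^ 8 * ((p ^ 8 : ℕ) : ℤ) ^ HH R := by
          rw [← pow_succ']
          exact mul_lt_mul_of_pos_right (pow_lt_pow_right₀ (by omega) (by norm_num)) hH
      _ ≤ q := by rw [mul_comm]; exact hqq
  have h0N := Int.eq_zero_of_abs_lt_dvd hd hlt
  have d3 := dvd_Zd_sub (B := p ^ 8) z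
  rw [h0N, h0, zero_sub, dvd_neg] at d3
  have h1 : ((p ^ 8 : ℕ) : ℤ) ≤ 1 := Int.le_of_dvd one_pos d3
  have h3 : (1 : ℤ) < (p : ℤ) ^ 8 := one_lt_pow₀ (by omega) (by norm_num)
  push_cast at h1
  omega

end Crest.R32
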