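import Crest.Agent.R32.Defs

/-! Row 32. How many matrices send given vectors to given vectors. -/

set_option autoImplicit false

namespace Crest.R32

open Finset Matrix

variable {q : ℕ} [Fact q.Prime]

theorem Fib_ext {b1 b2 b3 : V3 (ZMod q)} (h : det3 b1 b2 b3 ≠ 0) {g g' : M3 q}
    (h1 : g *ᵥ b1 = g' *ᵥ b1) (h2 : g *ᵥ b2 = g' *ᵥ b2) (h3 : g *ᵥ b3 = g' *ᵥ b3) : g = g' := by
  ext i j
  have e1 := congrFun h1 i
  have e2 := congrFun h2 i
  have e3 := congrFun h3 i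
  simp only [Matrix.mulVec, dotProduct, Fin.sum_univ_three] at e1 e2 e3
  rw [det3_def] at h
  apply mul_left_cancel₀ h
  fin_cases j
  · simp only [Fin.zero_eta]
    linear_combination (b2 1 * b3 2 - b2 2 * b3 1) * e1 + (b3 1 * b1 2 - b3 2 * b1 1) * e2
      + (b1 1 * b2 2 - b1 2 * b2 1) * e3
  · simp only [Fin.mk_one]
    linear_combination (b2 2 * b3 0 - b2 0 * b3 2) * e1 + (b3 2 * b1 0 - b3 0 * b1 2) * e2
      + (b1 2 * b2 0 - b1 0 * b2 2) * e3
  · simp only [Fin.reduceFinMk]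
    linear_combination (b2 0 * b3 1 - b2 1 * b3 0) * e1 + (b3 0 * b1 1 - b3 1 * b1 0) * e2
      + (b1 0 * b2 1 - b1 1 * b2 0) * e3

theorem Fib_exists_e {b1 b2 : V3 (ZMod q)} (h : cr b1 b2 ≠ 0) : ∃ e, det3 b1 b2 e ≠ 0 := by
  by_contra hc
  push Not at hc
  apply h
  have h0 := hc ![1, 0, 0]
  have h1 := hc ![0, 1, 0]
  have h2 := hc ![0, 0, 1]
  rw [cr_eq_zero_iff]
  simp [det3_def] at h0 h1 h2
  exact ⟨h0, h1, h2⟩

theorem Fib_exists_e' {b : V3 (ZMod q)} (h : b ≠ 0) : ∃ e, cr b e ≠ 0 := by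
  by_contra hc
  push Not at hc
  apply h
  have h0 := cr_eq_zero_iff.1 (hc ![1, 0, 0])
  have h1 := cr_eq_zero_iff.1 (hc ![0, 1, 0])
  simp at h0 h1
  exact v3_ext (by simpa using h1.2) (by simpa using h0.2) (by simpa using h0.1)

theorem Fib_card_V3 : (univ : Finset (V3 (ZMod q))).card = q ^ 3 := by
  simp [Finset.card_univ, ZMod.card]

theorem Fib_card_plane {c : V3 (ZMod q)} (hc : c ≠ 0) (d : ZMod q) :
    (univ.filter fun w : V3 (ZMod q) => dt c w = d).card ≤ q ^ 2 := by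
  have hcard : (univ : Finset (ZMod q × ZMod q)).card = q ^ 2 := by
    simp [Finset.card_univ, ZMod.card, sq]
  rw [← hcard]
  by_cases h0 : c 0 = 0
  · by_cases h1 : c 1 = 0
    · have h2 : c 2 ≠ 0 := fun h2 => hc (v3_ext (by simpa using h0) (by simpa using h1) (by simpa using h2))
      refine Finset.card_le_card_of_injOn (fun w => (w 0, w 1)) (fun _ _ => by simp) ?_
      intro w hw w' hw' e
      simp only [coe_filter, mem_univ, true_and, Set.mem_ofPred_eq, dt] at hw hw'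
      simp only [Prod.mk.injEq] at e
      refine v3_ext e.1 e.2 (mul_left_cancel₀ h2 ?_)
      linear_combination hw - hw' - c 0 * e.1 - c 1 * e.2
    · refine Finset.card_le_card_of_injOn (fun w => (w 0, w 2)) (fun _ _ => by simp) ?_
      intro w hw w' hw' e
      simp only [coe_filter, mem_univ, true_and, Set.mem_ofPred_eq, dt] at hw hw'
      simp only [Prod.mk.injEq] at e
      refine v3_ext e.1 (mul_left_cancel₀ h1 ?_) e.2
      linear_combination hw - hw' - c 0 * e.1 - c 2 * e.2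
  · refine Finset.card_le_card_of_injOn (fun w => (w 1, w 2)) (fun _ _ => by simp) ?_
    intro w hw w' hw' e
    simp only [coe_filter, mem_univ, true_and, Set.mem_ofPred_eq, dt] at hw hw'
    simp only [Prod.mk.injEq] at e
    refine v3_ext (mul_left_cancel₀ h0 ?_) e.1 e.2
    linear_combination hw - hw' - c 1 * e.1 - c 2 * e.2

theorem fib0 {b1 b2 b3 : V3 (ZMod q)} (h : det3 b1 b2 b3 ≠ 0) (v1 v2 v3 : V3 (ZMod q)) :
    ((SLs q).filter fun g => g *ᵥ b1 = v1 ∧ g *ᵥ b2 = v2 ∧ g *ᵥ b3 = v3).card ≤ 1 := by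
  rw [Finset.card_le_one]
  intro g hg g' hg'
  simp only [mem_filter] at hg hg'
  exact Fib_ext h (hg.2.1.trans hg'.2.1.symm) (hg.2.2.1.trans hg'.2.2.1.symm)
    (hg.2.2.2.trans hg'.2.2.2.symm)

theorem fibM2 {b1 b2 : V3 (ZMod q)} (h : cr b1 b2 ≠ 0) (v1 v2 : V3 (ZMod q)) :
    (univ.filter fun g : M3 q => g *ᵥ b1 = v1 ∧ g *ᵥ b2 = v2).card ≤ q ^ 3 := by
  obtain ⟨e, he⟩ := Fib_exists_e h
  rw [← Fib_card_V3]
  refine Finset.card_le_card_of_injOn (fun g => g *ᵥ e) (fun _ _ => by simp) ?_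
  intro g hg g' hg' hh
  simp only [coe_filter, mem_univ, true_and, Set.mem_ofPred_eq] at hg hg'
  exact Fib_ext he (hg.1.trans hg'.1.symm) (hg.2.trans hg'.2.symm) hh

theorem fib2 {b1 b2 : V3 (ZMod q)} (h : cr b1 b2 ≠ 0) (v1 v2 : V3 (ZMod q)) :
    ((SLs q).filter fun g => g *ᵥ b1 = v1 ∧ g *ᵥ b2 = v2).card ≤ q ^ 2 := by
  obtain ⟨e, he⟩ := Fib_exists_e h
  by_cases hv : cr v1 v2 = 0
  · have : ((SLs q).filter fun g => g *ᵥ b1 = v1 ∧ g *ᵥ b2 = v2) = ∅ := by
      rw [Finset.filter_eq_empty_iff]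
      rintro g hg ⟨h1, h2⟩
      simp only [SLs, mem_filter, mem_univ, true_and] at hg
      have := det3_mulVec g b1 b2 e
      rw [h1, h2, hg, one_mul] at this
      apply he
      rw [← this, det3, hv]
      simp [dt]
    rw [this]; simp
  · refine le_trans ?_ (Fib_card_plane hv (det3 b1 b2 e))
    refine Finset.card_le_card_of_injOn (fun g => g *ᵥ e) ?_ ?_
    · intro g hg
      simp only [SLs, coe_filter, mem_filter, mem_univ, true_and, Set.mem_ofPred_eq] at hg ⊢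
      have := det3_mulVec g b1 b2 e
      rw [hg.2.1, hg.2.2, hg.1, one_mul] at this
      exact this
    · intro g hg g' hg' hh
      simp only [coe_filter, Set.mem_ofPred_eq] at hg hg'
      exact Fib_ext he (hg.2.1.trans hg'.2.1.symm) (hg.2.2.trans hg'.2.2.symm) hh

theorem fib1 {b : V3 (ZMod q)} (h : b ≠ 0) (v : V3 (ZMod q)) :
    ((SLs q).filter fun g => g *ᵥ b = v).card ≤ q ^ 5 := by
  obtain ⟨e, he⟩ := Fib_exists_e' h
  have h1 : ((SLs q).filter fun g => g *ᵥ b = v).card ≤ q ^ 2 * (univ : Finset (V3 (ZMod q))).card := by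
    refine Finset.card_le_mul_card_image_of_maps_to (f := fun g => g *ᵥ e) (fun _ _ => mem_univ _) _ ?_
    intro w _
    rw [Finset.filter_filter]
    exact fib2 he v w
  rw [Fib_card_V3] at h1
  calc _ ≤ q ^ 2 * q ^ 3 := h1
    _ = q ^ 5 := by ring

theorem fibA {c1 c2 c3 : V3 (ZMod q)} (h : cr (c2 - c1) (c3 - c1) ≠ 0) (w1 w2 w3 : V3 (ZMod q)) :
    ((GLs q ×ˢ (univ : Finset (V3 (ZMod q)))).filter fun ω =>
      ω.1 *ᵥ c1 + ω.2 = w1 ∧ ω.1 *ᵥ c2 + ω.2 = w2 ∧ ω.1 *ᵥ c3 + ω.2 = w3).card ≤ q ^ 3 := by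
  refine le_trans ?_ (fibM2 h (w2 - w1) (w3 - w1))
  refine Finset.card_le_card_of_injOn (fun ω => ω.1) ?_ ?_
  · intro ω hω
    simp only [coe_filter, mem_univ, true_and, Set.mem_ofPred_eq] at hω ⊢
    obtain ⟨-, h1, h2, h3⟩ := hω
    rw [Matrix.mulVec_sub, Matrix.mulVec_sub, ← h1, ← h2, ← h3]
    constructor <;> abel
  · intro ω hω ω' hω' hh
    simp only [coe_filter, Set.mem_ofPred_eq] at hω hω'
    have hh' : ω.1 = ω'.1 := hh
    refine Prod.ext hh' ?_
    have := hω.2.1.trans hω'.2.1.symm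
    rw [hh'] at this
    exact add_left_cancel this

end Crest.R32
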