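import Crest.Agent.R32.Far
import Crest.Agent.R32.Alt

/-! Row 32. The gadget. -/

set_option autoImplicit false

namespace Crest.R32

open Finset Matrix

/-- `ind`: different classes give a non-zero entry `0` of the cross product; equal classes and different shifts give
the entry `1` equal to `Z (ξ₂ - ξ₁) ≠ 0`.  `sum0`: use the coordinates `1` and `2`. -/
theorem gadget_of {p q I : ℕ} [Fact q.Prime] (hI : I ≤ q) (X Y Z : ZMod p × ZMod p → ℤ)
    (far : ∀ a b c, a ≠ b → a ≠ c → b ≠ c → ∀ ξ1 ξ2 ξ3 : Fin I, ∀ t : ℤ,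
      (q : ℤ) ∣ t - det3 ![X a + (ξ1 : ℕ), Y a, Z a] ![X b + (ξ2 : ℕ), Y b, Z b]
        ![X c + (ξ3 : ℕ), Y c, Z c] → (q : ℤ) ≤ 4 * p * |t|)
    (ind : ∀ a c, a ≠ c → ¬ (q : ℤ) ∣ Y a * Z c - Z a * Y c) (zne : ∀ a, ¬ (q : ℤ) ∣ Z a) :
    Nonempty (Gadget p q I) := by
  classical
  have ind' : ∀ a c, a ≠ c →
      (Y a : ZMod q) * (Z c : ZMod q) - (Z a : ZMod q) * (Y c : ZMod q) ≠ 0 := by
    intro a c hac h
    apply ind a c hac
    rw [← ZMod.intCast_zmod_eq_zero_iff_dvd]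
    push_cast
    exact h
  have zne' : ∀ a, (Z a : ZMod q) ≠ 0 := by
    intro a h
    exact zne a ((ZMod.intCast_zmod_eq_zero_iff_dvd _ _).mp h)
  have two : ∀ (a c : ZMod p × ZMod p) (s t : ZMod q), s * (Y a : ZMod q) + t * (Y c : ZMod q) = 0 →
      s * (Z a : ZMod q) + t * (Z c : ZMod q) = 0 → s + t = 0 := by
    intro a c s t h1 h2
    by_cases hac : a = c
    · subst hac
      have : (s + t) * (Z a : ZMod q) = 0 := by linear_combination h2
      exact (mul_eq_zero.mp this).resolve_right (zne' a)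
    · have hs : s * ((Y a : ZMod q) * (Z c : ZMod q) - (Z a : ZMod q) * (Y c : ZMod q)) = 0 := by
        linear_combination (Z c : ZMod q) * h1 - (Y c : ZMod q) * h2
      have ht : t * ((Y a : ZMod q) * (Z c : ZMod q) - (Z a : ZMod q) * (Y c : ZMod q)) = 0 := by
        linear_combination (Y a : ZMod q) * h2 - (Z a : ZMod q) * h1
      rw [(mul_eq_zero.mp hs).resolve_right (ind' a c hac),
        (mul_eq_zero.mp ht).resolve_right (ind' a c hac), add_zero]
  refine ⟨⟨fun l => red q ![X l.1 + (l.2 : ℕ), Y l.1, Z l.1], ?_, ?_, ?_, ?_⟩⟩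
  · intro l1 l2 l3 h12 h13 h23 t ht
    refine far l1.1 l2.1 l3.1 h12 h13 h23 l1.2 l2.2 l3.2 t ?_
    rw [← ZMod.intCast_zmod_eq_zero_iff_dvd, Int.cast_sub, red_det3, ht, sub_self]
  · rintro ⟨a, ξ1⟩ ⟨c, ξ2⟩ hne h
    rw [cr_eq_zero_iff] at h
    obtain ⟨h0, h1, -⟩ := h
    by_cases hac : a = c
    · subst hac
      have hξ : ξ1 ≠ ξ2 := fun h => hne (by rw [h])
      simp only [red, Matrix.cons_val_zero, Matrix.cons_val_one, Matrix.cons_val] at h1
      push_cast at h1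
      have h3 : (Z a : ZMod q) * (((ξ2 : ℕ) : ZMod q) - ((ξ1 : ℕ) : ZMod q)) = 0 := by
        linear_combination h1
      have h4 := sub_eq_zero.mp ((mul_eq_zero.mp h3).resolve_left (zne' a))
      rw [ZMod.natCast_eq_natCast_iff', Nat.mod_eq_of_lt (lt_of_lt_of_le ξ2.2 hI),
        Nat.mod_eq_of_lt (lt_of_lt_of_le ξ1.2 hI)] at h4
      exact hξ (Fin.ext h4.symm)
    · simp only [red, Matrix.cons_val_zero, Matrix.cons_val_one, Matrix.cons_val] at h0
      exact ind' a c hac h0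
  · intro l h
    have := congrFun h 2
    simp only [red, Matrix.cons_val, Pi.zero_apply] at this
    exact zne' _ this
  · rintro ⟨a, ξ1⟩ ⟨b, ξ2⟩ ⟨c, ξ3⟩ hor κ h
    have h1 := congrFun h 1
    have h2 := congrFun h 2
    simp only [red, Pi.add_apply, Pi.smul_apply, smul_eq_mul, Matrix.cons_val_zero,
      Matrix.cons_val_one, Matrix.cons_val, Pi.zero_apply] at h1 h2
    rcases hor with hor | hor | hor
    · simp only at hor
      subst hor
      exact two a c (κ 0 + κ 1) (κ 2) (by linear_combination h1) (by linear_combination h2)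
    · simp only at hor
      subst hor
      have := two a b (κ 0 + κ 2) (κ 1) (by linear_combination h1) (by linear_combination h2)
      linear_combination this
    · simp only at hor
      subst hor
      have := two a b (κ 0) (κ 1 + κ 2) (by linear_combination h1) (by linear_combination h2)
      linear_combination this

theorem gad_val_le {p : ℕ} [NeZero p] (u : ZMod p) : |((u.val : ℕ) : ℤ)| ≤ (p : ℤ) ^ 2 := by
  have h := ZMod.val_lt u
  rw [abs_of_nonneg (by positivity)]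
  have h1 : ((u.val : ℕ) : ℤ) < p := by exact_mod_cast h
  have h2 : (0 : ℤ) ≤ (u.val : ℕ) := by positivity
  nlinarith

theorem gad_code_le {p : ℕ} [NeZero p] (a : ZMod p × ZMod p) :
    |((a.1.val * p + a.2.val : ℕ) : ℤ)| ≤ (p : ℤ) ^ 2 := by
  rw [abs_of_nonneg (by positivity)]
  have h1 : a.1.val + 1 ≤ p := ZMod.val_lt a.1
  have h2 : a.2.val < p := ZMod.val_lt a.2
  have h3 : a.1.val * p + a.2.val ≤ p ^ 2 := by nlinarith
  exact_mod_cast h3

theorem gad_code_inj {p : ℕ} [NeZero p] {a c : ZMod p × ZMod p}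
    (h : a.1.val * p + a.2.val = c.1.val * p + c.2.val) : a = c := by
  have hp : 0 < p := Nat.pos_of_ne_zero (NeZero.ne p)
  have h2 : a.2.val < p := ZMod.val_lt a.2
  have h2' : c.2.val < p := ZMod.val_lt c.2
  have e2 : a.2.val = c.2.val := by
    have := congrArg (· % p) h
    simpa [Nat.mul_add_mod_self_right, Nat.add_mod, Nat.mod_eq_of_lt h2, Nat.mod_eq_of_lt h2'] using this
  have e1 : a.1.val = c.1.val := by
    rw [e2] at h
    exact Nat.eq_of_mul_eq_mul_right hp (Nat.add_right_cancel h)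
  exact Prod.ext (ZMod.val_injective p e1) (ZMod.val_injective p e2)

theorem gad_aux (n p q : ℕ) [Fact p.Prime] [Fact q.Prime] (hp : 48 * (n + 1) ^ 3 ≤ p)
    (x y z : Fin n → ZMod p × ZMod p → ZMod p)
    (h : ∀ a b c, a ≠ b → a ≠ c → b ≠ c →
      ∑ r, det3 ![x r a, y r a, z r a] ![x r b, y r b, z r b] ![x r c, y r c, z r c] ≠ 0)
    (hq : (p ^ 8) ^ (2 * HH (n + 1) + 2) ≤ q) (hI : (p ^ 8) ^ (HH (n + 1) + 1) ≤ q) :
    Nonempty (Gadget p q ((p ^ 8) ^ (HH (n + 1) + 1))) := by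
  have hp0 : 0 < p := (Fact.out : p.Prime).pos
  have : NeZero p := ⟨hp0.ne'⟩
  let xd : ZMod p × ZMod p → Fin (n + 1) → ℤ := fun a =>
    Fin.cons 0 (fun r => (((x r a).val : ℕ) : ℤ))
  let yd : ZMod p × ZMod p → Fin (n + 1) → ℤ := fun a =>
    Fin.cons ((a.1.val * p + a.2.val : ℕ) : ℤ) (fun r => (((y r a).val : ℕ) : ℤ))
  let zd : ZMod p × ZMod p → Fin (n + 1) → ℤ := fun a =>
    Fin.cons 1 (fun r => (((z r a).val : ℕ) : ℤ))
  have hp1 : (1 : ℤ) ≤ (p : ℤ) ^ 2 := one_le_pow₀ (by exact_mod_cast hp0)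
  have hxd : ∀ a r, |xd a r| ≤ (p : ℤ) ^ 2 := by
    intro a r
    refine Fin.cases ?_ (fun r => ?_) r
    · simp [xd]
    · simpa only [xd, Fin.cons_succ] using gad_val_le _
  have hyd : ∀ a r, |yd a r| ≤ (p : ℤ) ^ 2 := by
    intro a r
    refine Fin.cases ?_ (fun r => ?_) r
    · simpa only [yd, Fin.cons_zero] using gad_code_le a
    · simpa only [yd, Fin.cons_succ] using gad_val_le _
  have hzd : ∀ a r, |zd a r| ≤ (p : ℤ) ^ 2 := by
    intro a r
    refine Fin.cases ?_ (fun r => ?_) r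
    · simpa only [zd, Fin.cons_zero, abs_one] using hp1
    · simpa only [zd, Fin.cons_succ] using gad_val_le _
  refine gadget_of hI (fun a => Xd (n + 1) p (p ^ 8) q (xd a)) (fun a => Yd (n + 1) (p ^ 8) (yd a))
    (fun a => Zd (n + 1) (p ^ 8) (zd a)) ?_ ?_ ?_
  · intro a b c hab hac hbc ξ1 ξ2 ξ3 t ht
    have hξ : ∀ ξ : Fin ((p ^ 8) ^ (HH (n + 1) + 1)),
        |((ξ : ℕ) : ℤ)| ≤ ((p : ℤ) ^ 8) ^ (HH (n + 1) + 1) := by
      intro ξ
      rw [abs_of_nonneg (by positivity)]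
      exact_mod_cast ξ.2.le
    refine gadget_far (R := n + 1) (by omega) hp hq ![xd a, xd b, xd c] ![yd a, yd b, yd c]
      ![zd a, zd b, zd c] ![((ξ1 : ℕ) : ℤ), ((ξ2 : ℕ) : ℤ), ((ξ3 : ℕ) : ℤ)] ?_ ?_ ?_ ?_ ?_ t ?_
    · intro i r; fin_cases i <;> exact hxd _ _
    · intro i r; fin_cases i <;> exact hyd _ _
    · intro i r; fin_cases i <;> exact hzd _ _
    · intro i; fin_cases i <;> exact hξ _
    · intro hd
      apply h a b c hab hac hbc
      have := (ZMod.intCast_zmod_eq_zero_iff_dvd _ p).2 hd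
      rw [Fin.sum_univ_succ] at this
      simpa [xd, yd, zd, det3_def] using this
    · exact ht
  · intro a c hac
    refine gadget_ind (R := n + 1) hp hq (yd a) (zd a) (yd c) (zd c) (hyd a) (hzd a) (hyd c) (hzd c)
      rfl rfl ?_
    intro he
    apply hac
    apply gad_code_inj
    simp only [yd, Fin.cons_zero] at he
    exact_mod_cast he
  · intro a
    exact gadget_zne (R := n + 1) hp hq (zd a) (hzd a) rfl

theorem gad_main (n : ℕ) (halt : ∀ (p : ℕ) [Fact p.Prime], 3 < p →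
    ∃ x y z : Fin n → ZMod p × ZMod p → ZMod p, ∀ a b c, a ≠ b → a ≠ c → b ≠ c →
      ∑ r, det3 ![x r a, y r a, z r a] ![x r b, y r b, z r b] ![x r c, y r c, z r c] ≠ 0) :
    ∃ E p₀ : ℕ, ∀ p : ℕ, p.Prime → p₀ ≤ p →
    ∃ q I : ℕ, q.Prime ∧ q ≤ p ^ E ∧ 0 < I ∧ I ≤ q ∧ q ≤ 2 * I ^ 2 ∧ Nonempty (Gadget p q I) := by
  refine ⟨8 * (2 * HH (n + 1) + 2) + 1, 48 * (n + 1) ^ 3, fun p hp hp0 => ?_⟩
  have : Fact p.Prime := ⟨hp⟩
  have h3 : 3 < p := by
    have : 1 ≤ (n + 1) ^ 3 := Nat.one_le_pow _ _ (by omega)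
    omega
  obtain ⟨x, y, z, h⟩ := halt p h3
  obtain ⟨I, hI⟩ : ∃ I, I = (p ^ 8) ^ (HH (n + 1) + 1) := ⟨_, rfl⟩
  have hI0 : 0 < I := by rw [hI]; exact pow_pos (pow_pos hp.pos _) _
  have hI2 : I ^ 2 = (p ^ 8) ^ (2 * HH (n + 1) + 2) := by
    rw [hI, ← pow_mul]; congr 1; ring
  obtain ⟨q, hq, hq1, hq2⟩ := Nat.exists_prime_lt_and_le_two_mul (I ^ 2) (by positivity)
  have : Fact q.Prime := ⟨hq⟩
  have hIq : I ≤ q := by nlinarith
  refine ⟨q, I, hq, ?_, hI0, hIq, hq2, ?_⟩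
  · rw [pow_succ, pow_mul, ← hI2]
    have := hp.two_le
    nlinarith
  · rw [hI]
    exact gad_aux n p q hp0 x y z h (by rw [← hI2]; exact hq1.le) (by rw [← hI]; exact hIq)

/-- `R = 1000 + 1`, `H = HH R` (keep `R` abstract: `obtain ⟨R, hR⟩ : ∃ R, R = 1000 + 1`, never unfold the powers),
`p₀ = 48 R³`, `I = (p⁸)^(H+1)`, `q` a prime in `(I², 2I²]` (Bertrand), `E = 8(2H+2) + 1`.
Digits of the class `a`: `Fin.cons 0 (fun r => (x r a).val)`, `Fin.cons (a.1.val * p + a.2.val) (fun r => (y r a).val)`,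
`Fin.cons 1 (fun r => (z r a).val)` with `x y z` from `exists_alt` (`Fin.sum_univ_succ`; the extra determinant has a zero
first column).  Then `gadget_far`, `gadget_ind`, `gadget_zne`, `gadget_of`. -/
theorem exists_gadget : ∃ E p₀ : ℕ, ∀ p : ℕ, p.Prime → p₀ ≤ p →
    ∃ q I : ℕ, q.Prime ∧ q ≤ p ^ E ∧ 0 < I ∧ I ≤ q ∧ q ≤ 2 * I ^ 2 ∧ Nonempty (Gadget p q I) := by
  exact gad_main 1000 (fun p _ hp => exists_alt p hp)

end Crest.R32
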