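import Crest.Agent.R32.Defs

/-! Row 32. Sizes of `GL₃`, `SL₃` over `ZMod q` and of two small subspaces. -/

set_option autoImplicit false

namespace Crest.R32

open Finset Matrix

variable (q : ℕ) [Fact q.Prime]

theorem grp_card_GLs_eq : (GLs q).card = (q ^ 3 - 1) * (q ^ 3 - q) * (q ^ 3 - q ^ 2) := by
  have h := Matrix.card_GL_field (𝔽 := ZMod q) 3
  rw [ZMod.card, Fin.prod_univ_three] at h
  simp only [Fin.val_zero, Fin.val_one, Fin.val_two, pow_zero, pow_one] at h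
  rw [← h, Nat.card_eq_fintype_card, ← Finset.card_univ]
  symm
  refine Finset.card_bij (fun g _ => (g : M3 q)) (fun g _ => ?_) (fun g _ g' _ h => Units.ext h)
    fun A hA => ?_
  · simp only [GLs, Finset.mem_filter, Finset.mem_univ, true_and]
    exact Matrix.GeneralLinearGroup.det_ne_zero g
  · simp only [GLs, Finset.mem_filter, Finset.mem_univ, true_and] at hA
    exact ⟨Matrix.GeneralLinearGroup.mkOfDetNeZero A hA, Finset.mem_univ _, rfl⟩

/-- `Matrix.card_GL_field`: `(q³-1)(q³-q)(q³-q²) ≥ (7/8)(3/4)(1/2) q⁹`. -/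
theorem card_GLs : q ^ 9 ≤ 4 * (GLs q).card := by
  have h2 : 2 ≤ q := (Fact.out : q.Prime).two_le
  have e1 : 7 * q ^ 3 ≤ 8 * (q ^ 3 - 1) := by
    have : 2 ^ 3 ≤ q ^ 3 := Nat.pow_le_pow_left h2 3
    omega
  have e2 : 3 * q ^ 3 ≤ 4 * (q ^ 3 - q) := by
    have : 4 * q ≤ q ^ 3 := by
      calc 4 * q = 2 ^ 2 * q := by norm_num
        _ ≤ q ^ 2 * q := Nat.mul_le_mul_right _ (Nat.pow_le_pow_left h2 2)
        _ = q ^ 3 := by ring
    omega
  have e3 : q ^ 3 ≤ 2 * (q ^ 3 - q ^ 2) := by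
    have : 2 * q ^ 2 ≤ q ^ 3 := by
      calc 2 * q ^ 2 ≤ q * q ^ 2 := Nat.mul_le_mul_right _ h2
        _ = q ^ 3 := by ring
    omega
  rw [grp_card_GLs_eq]
  have h := Nat.mul_le_mul (Nat.mul_le_mul e1 e2) e3
  generalize q ^ 3 - 1 = a at h ⊢
  generalize q ^ 3 - q = b at h ⊢
  generalize q ^ 3 - q ^ 2 = c at h ⊢
  have h3 : 7 * q ^ 3 * (3 * q ^ 3) * q ^ 3 = 21 * q ^ 9 := by ring
  have h4 : 8 * a * (4 * b) * (2 * c) = 64 * (a * b * c) := by ring
  omega

/-- `g ↦ (det g, g * diagonal ![(det g)⁻¹, 1, 1])` injects `GLs q` into `univ ×ˢ SLs q`. -/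
theorem card_SLs : q ^ 8 ≤ 4 * (SLs q).card := by
  have h1 : (GLs q).card ≤ ((univ : Finset (ZMod q)) ×ˢ SLs q).card := by
    refine Finset.card_le_card_of_injOn
      (fun g => (g.det, g * diagonal ![(g.det)⁻¹, 1, 1])) (fun g hg => ?_) fun g hg g' hg' h => ?_
    · simp only [GLs, Finset.coe_filter, Finset.mem_univ, true_and, Set.mem_ofPred_eq] at hg
      simp only [SLs, Finset.coe_product, Finset.coe_univ, Finset.coe_filter, Finset.mem_univ,
        true_and, Set.mem_prod, Set.mem_univ, Set.mem_ofPred_eq]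
      rw [det_mul, det_diagonal, Fin.prod_univ_three]
      simp [hg]
    · simp only [GLs, Finset.coe_filter, Finset.mem_univ, true_and, Set.mem_ofPred_eq] at hg
      obtain ⟨h1, h2⟩ := Prod.ext_iff.1 h
      simp only at h1 h2
      rw [← h1] at h2
      have hu : IsUnit (diagonal ![(g.det)⁻¹, 1, 1] : M3 q) := by
        rw [Matrix.isUnit_iff_isUnit_det, det_diagonal, Fin.prod_univ_three]
        simp [hg]
      exact hu.mul_right_cancel h2
  rw [Finset.card_product, Finset.card_univ, ZMod.card] at h1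
  have h2 := card_GLs q
  have h3 : q * q ^ 8 ≤ q * (4 * (SLs q).card) := by
    calc q * q ^ 8 = q ^ 9 := by ring
      _ ≤ 4 * (q * (SLs q).card) := h2.trans (Nat.mul_le_mul_left _ h1)
      _ = _ := by ring
  exact Nat.le_of_mul_le_mul_left h3 (Fact.out : q.Prime).pos

theorem card_Om (l : ℕ) [Fact l.Prime] : q ^ 8 * l ^ 12 ≤ 16 * (Om q l).card := by
  rw [Om, Finset.card_product, Finset.card_product, Finset.card_univ, Fintype.card_fun, ZMod.card,
    Fintype.card_fin]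
  calc q ^ 8 * l ^ 12 = q ^ 8 * l ^ 9 * l ^ 3 := by ring
    _ ≤ 4 * (SLs q).card * (4 * (GLs l).card) * l ^ 3 :=
      Nat.mul_le_mul_right _ (Nat.mul_le_mul (card_SLs q) (card_GLs l))
    _ = _ := by ring

variable {q}

theorem grp_indep {b1 b2 : V3 (ZMod q)} (h : cr b1 b2 ≠ 0) {s t : ZMod q}
    (hst : s • b1 + t • b2 = 0) : s = 0 ∧ t = 0 := by
  have h0 := congrFun hst 0
  have h1 := congrFun hst 1
  have h2 := congrFun hst 2
  simp only [Pi.add_apply, Pi.smul_apply, smul_eq_mul, Pi.zero_apply] at h0 h1 h2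
  constructor
  · by_contra hs
    refine h (cr_eq_zero_iff.2 ⟨?_, ?_, ?_⟩) <;> refine mul_left_cancel₀ hs ?_
    · linear_combination b2 2 * h1 - b2 1 * h2
    · linear_combination b2 0 * h2 - b2 2 * h0
    · linear_combination b2 1 * h0 - b2 0 * h1
  · by_contra ht
    refine h (cr_eq_zero_iff.2 ⟨?_, ?_, ?_⟩) <;> refine mul_left_cancel₀ ht ?_
    · linear_combination b1 1 * h2 - b1 2 * h1
    · linear_combination b1 2 * h0 - b1 0 * h2
    · linear_combination b1 0 * h1 - b1 1 * h0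

/-- if `cr b1 b2 ≠ 0` then `κ ↦ κ 2` is injective on the set, and so on. -/
theorem card_ker {b1 b2 b3 : V3 (ZMod q)}
    (h : cr b1 b2 ≠ 0 ∨ cr b1 b3 ≠ 0 ∨ cr b2 b3 ≠ 0) :
    (univ.filter fun κ : V3 (ZMod q) => κ 0 • b1 + κ 1 • b2 + κ 2 • b3 = 0).card ≤ q := by
  have key : ∀ i : Fin 3, (∀ κ : V3 (ZMod q), κ 0 • b1 + κ 1 • b2 + κ 2 • b3 = 0 → κ i = 0 →
      κ = 0) → (univ.filter fun κ : V3 (ZMod q) =>
        κ 0 • b1 + κ 1 • b2 + κ 2 • b3 = 0).card ≤ q := fun i hi => by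
    have h1 : (univ.filter fun κ : V3 (ZMod q) => κ 0 • b1 + κ 1 • b2 + κ 2 • b3 = 0).card ≤
        (univ : Finset (ZMod q)).card := by
      refine Finset.card_le_card_of_injOn (fun κ => κ i) (fun _ _ => by simp)
        fun κ hκ κ' hκ' h => ?_
      simp only [Finset.coe_filter, Finset.mem_univ, true_and, Set.mem_ofPred_eq] at hκ hκ'
      refine sub_eq_zero.1 (hi _ ?_ (sub_eq_zero.2 h))
      simp only [Pi.sub_apply, sub_smul]
      linear_combination (exp := 1) hκ - hκ'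
    rwa [Finset.card_univ, ZMod.card] at h1
  rcases h with h | h | h
  · refine key 2 fun κ hκ h2 => ?_
    rw [h2, zero_smul, add_zero] at hκ
    exact v3_ext (grp_indep h hκ).1 (grp_indep h hκ).2 h2
  · refine key 1 fun κ hκ h2 => ?_
    rw [h2, zero_smul, add_zero] at hκ
    exact v3_ext (grp_indep h hκ).1 h2 (grp_indep h hκ).2
  · refine key 0 fun κ hκ h2 => ?_
    rw [h2, zero_smul, zero_add] at hκ
    exact v3_ext h2 (grp_indep h hκ).1 (grp_indep h hκ).2

theorem card_sum0 :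
    (univ.filter fun κ : V3 (ZMod q) => κ 0 + κ 1 + κ 2 = 0).card ≤ q ^ 2 := by
  have h1 : (univ.filter fun κ : V3 (ZMod q) => κ 0 + κ 1 + κ 2 = 0).card ≤
      (univ : Finset (ZMod q × ZMod q)).card := by
    refine Finset.card_le_card_of_injOn (fun κ => (κ 0, κ 1)) (fun _ _ => by simp)
      fun κ hκ κ' hκ' h => ?_
    simp only [Finset.coe_filter, Finset.mem_univ, true_and, Set.mem_ofPred_eq] at hκ hκ'
    obtain ⟨h0, h1⟩ := Prod.ext_iff.1 h
    simp only at h0 h1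
    exact v3_ext h0 h1 (by linear_combination hκ - hκ' - h0 - h1)
  rwa [Finset.card_univ, Fintype.card_prod, ZMod.card, ← pow_two] at h1

/-- pick `w` (a basis vector) with `det3 u v w ≠ 0` and use `det3_mulVec`. -/
theorem cr_mulVec_ne {A : M3 q} (hA : A.det ≠ 0) {u v : V3 (ZMod q)} (h : cr u v ≠ 0) :
    cr (A *ᵥ u) (A *ᵥ v) ≠ 0 := by
  intro h0
  have key : ∀ w, det3 u v w = 0 := fun w => by
    have h1 := det3_mulVec A u v w
    rw [det3, h0] at h1
    simp only [dt, Pi.zero_apply, zero_mul, add_zero] at h1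
    exact (mul_eq_zero.1 h1.symm).resolve_left hA
  refine h (cr_eq_zero_iff.2 ⟨?_, ?_, ?_⟩)
  · simpa [det3_def] using key ![1, 0, 0]
  · simpa [det3_def] using key ![0, 1, 0]
  · simpa [det3_def] using key ![0, 0, 1]

theorem mulVec_eq_zero_of_det {A : M3 q} (hA : A.det ≠ 0) {u : V3 (ZMod q)} (h : A *ᵥ u = 0) :
    u = 0 := by
  exact Matrix.eq_zero_of_mulVec_eq_zero hA h

end Crest.R32
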