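import Crest.Agent.R32.Triple
import Crest.Agent.R32.Del
import Crest.Agent.R32.Cap

/-! Row 32. The configuration of integer vectors and the planar point set. -/

set_option autoImplicit false

namespace Crest.R32

open Finset Matrix

theorem Main_arith {p q I l lm n N2 N3 : ℝ} (hp : 1 ≤ p) (hq : 0 < q) (hl : 0 < l) (hI : 0 < I)
    (hlm : 0 ≤ lm) (hn : 0 ≤ n) (hN3 : 0 ≤ N3) (hqI : q ≤ 2 * I ^ 2)
    (h2 : N2 * p ^ 2 ≤ 3 * n ^ 3) (h3 : N3 * (p ^ 2 * I) ^ 2 ≤ n ^ 3)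
    (hbig : 2 * 10 ^ 13 * lm * n ^ 2 ≤ p ^ 2 * q ^ 2 * l ^ 3) :
    (2 * 10 ^ 12 * lm / (q ^ 2 * l ^ 3)) * (N2 + N3 * q) ≤ n / 2 := by
  have hp0 : 0 < p := by linarith
  have hp2 : 1 ≤ p ^ 2 := one_le_pow₀ hp
  have e1 : N3 * q * p ^ 2 ≤ 2 * n ^ 3 := by
    calc N3 * q * p ^ 2 ≤ N3 * (2 * I ^ 2) * p ^ 2 := by gcongr
      _ ≤ N3 * (2 * I ^ 2) * (p ^ 2 * p ^ 2) := by
        have : p ^ 2 ≤ p ^ 2 * p ^ 2 := le_mul_of_one_le_right (by positivity) hp2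
        gcongr
      _ = 2 * (N3 * (p ^ 2 * I) ^ 2) := by ring
      _ ≤ 2 * n ^ 3 := by gcongr
  have e2 : N2 + N3 * q ≤ 5 * n ^ 3 / p ^ 2 := by
    rw [le_div_iff₀ (by positivity)]
    linarith
  calc (2 * 10 ^ 12 * lm / (q ^ 2 * l ^ 3)) * (N2 + N3 * q)
      ≤ (2 * 10 ^ 12 * lm / (q ^ 2 * l ^ 3)) * (5 * n ^ 3 / p ^ 2) := by gcongr
    _ = (2 * 10 ^ 13 * lm * n ^ 2) / (p ^ 2 * q ^ 2 * l ^ 3) * (n / 2) := by
      field_simp
      ring
    _ ≤ 1 * (n / 2) := by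
      gcongr
      rw [div_le_one (by positivity)]
      exact hbig
    _ = n / 2 := one_mul _

/-- `ι = ((ZMod p × ZMod p) × Fin I) × Fin m`, `n₀ = card ι = p² I m`, `γ` from `exists_cap`, `Λ` from `exists_lift`,
`bad i j k = Λ.bad p (Γ.β i.1) (Γ.β j.1) (Γ.β k.1) (γ i) (γ j) (γ k)`.  By `bad_gadget`, `card_two_eq`, `card_all_eq` the sum in
`exists_good` is at most `|Ω| (2·10¹² lam / (q² l³)) n₀³ (3/p² + q/(p² I)²) ≤ |Ω| (10¹³ lam / (p² q² l³)) n₀³ ≤ |Ω| n₀ / 2`.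
`Om q l` is non-empty (`card_Om`).  `v i = Λ.pt ω (Γ.β i.1) (γ i)`. -/
theorem config {p q I l m : ℕ} (hp : p.Prime) (hq : q.Prime) (hl : l.Prime) (hl2 : l ≠ 2)
    (hql : q ≠ l) (hI : 0 < I) (hqI : q ≤ 2 * I ^ 2) (Γ : Gadget p q I)
    (hcap : p ^ 2 * I * m ≤ l ^ 2)
    (hbig : 2 * 10 ^ 13 * lam (2 * (q * l)) * (p ^ 2 * I * m) ^ 2 ≤ p ^ 2 * q ^ 2 * l ^ 3) :
    ∃ (ι : Type) (J : Finset ι) (v : ι → V3 ℤ), p ^ 2 * I * m ≤ 2 * J.card ∧
      (∀ i, (0 ≤ v i 0 ∧ v i 0 < q * l) ∧ (0 ≤ v i 1 ∧ v i 1 < q * l) ∧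
        ((q * l : ℤ) ≤ v i 2 ∧ v i 2 < 2 * (q * l))) ∧
      ∀ i ∈ J, ∀ j ∈ J, ∀ k ∈ J, i ≠ j → i ≠ k → j ≠ k →
        (q : ℤ) ≤ 4 * p * |det3 (v i) (v j) (v k)| := by
  classical
  haveI : Fact p.Prime := ⟨hp⟩
  haveI : Fact q.Prime := ⟨hq⟩
  haveI : Fact l.Prime := ⟨hl⟩
  have hA : Fintype.card (ZMod p × ZMod p) = p ^ 2 := by
    rw [Fintype.card_prod, ZMod.card, sq]
  have hL : Fintype.card ((ZMod p × ZMod p) × Fin I) = p ^ 2 * I := by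
    rw [Fintype.card_prod, hA, Fintype.card_fin]
  have hcard : Fintype.card (((ZMod p × ZMod p) × Fin I) × Fin m) = p ^ 2 * I * m := by
    rw [Fintype.card_prod, hL, Fintype.card_fin]
  obtain ⟨γ, hγ⟩ := exists_cap l hl2 (((ZMod p × ZMod p) × Fin I) × Fin m) (hcard ▸ hcap)
  obtain ⟨Λ⟩ := exists_lift q l hql
  have hO : (Om q l).Nonempty := by
    rw [← Finset.card_pos]
    have h1 := card_Om (q := q) l
    have h2 : 0 < q ^ 8 * l ^ 12 := by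
      have := hq.pos
      have := hl.pos
      positivity
    omega
  obtain ⟨ω, hω, J, hJ, hgood⟩ := exists_good (ι := ((ZMod p × ZMod p) × Fin I) × Fin m) (Om q l) hO
    (fun i j k => Λ.bad p (Γ.β i.1) (Γ.β j.1) (Γ.β k.1) (γ i) (γ j) (γ k)) (by
      set c : ℝ := 2 * 10 ^ 12 * lam (2 * (q * l)) / ((q : ℝ) ^ 2 * (l : ℝ) ^ 3) with hc
      have hc0 : 0 ≤ c := by positivity
      have h2 := card_two_eq (ZMod p × ZMod p) (Fin I) (Fin m)
      have h3 := card_all_eq ((ZMod p × ZMod p) × Fin I) (Fin m)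
      rw [hA, hcard] at h2
      rw [hL, hcard] at h3
      refine le_trans (Finset.sum_le_sum (g := fun x => ((Om q l).card : ℝ) * c *
        ((if x.1.1.1 = x.2.1.1.1 ∨ x.1.1.1 = x.2.2.1.1 ∨ x.2.1.1.1 = x.2.2.1.1 then 1 else 0)
          + (if x.1.1 = x.2.1.1 ∧ x.1.1 = x.2.2.1 then (q : ℝ) else 0))) ?_) ?_
      · intro x hx
        obtain ⟨-, h12, h13, h23⟩ := mem_filter.1 hx
        exact bad_gadget Λ Γ hp.one_le (hγ _ _ _ h12 h13 h23) x.1.1 x.2.1.1 x.2.2.1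
      refine le_trans (Finset.sum_le_sum_of_subset_of_nonneg (Finset.filter_subset _ _) ?_) ?_
      · intro x _ _
        have : (0 : ℝ) ≤ q := Nat.cast_nonneg _
        refine mul_nonneg (by positivity) (add_nonneg ?_ ?_) <;> split_ifs <;> first | positivity | exact le_rfl
      rw [← Finset.mul_sum, Finset.sum_add_distrib, mul_assoc]
      refine mul_le_mul_of_nonneg_left ?_ (Nat.cast_nonneg _)
      rw [← Finset.sum_filter, ← Finset.sum_filter, Finset.sum_const, Finset.sum_const, nsmul_eq_mul,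
        nsmul_eq_mul, mul_one, hcard]
      refine Main_arith (p := p) (I := I) (by exact_mod_cast hp.one_le) (by exact_mod_cast hq.pos)
        (by exact_mod_cast hl.pos) (by exact_mod_cast hI) (Nat.cast_nonneg _) (Nat.cast_nonneg _)
        (Nat.cast_nonneg _) (by exact_mod_cast hqI) (by exact_mod_cast h2) (by exact_mod_cast h3)
        (by exact_mod_cast hbig))
  refine ⟨((ZMod p × ZMod p) × Fin I) × Fin m, J, fun i => Λ.pt ω (Γ.β i.1) (γ i), hcard ▸ hJ, ?_, ?_⟩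
  · intro i
    exact ⟨Λ.b0 _ _, Λ.b1 _ _, Λ.b2 _ _⟩
  · intro i hi j hj k hk hij hik hjk
    have h := hgood i hi j hj k hk hij hik hjk
    simp only [Lift.bad, mem_filter, not_and, not_lt] at h
    exact h hω

/-- Take `J' ⊆ J` with `n` elements (`Finset.exists_subset_card_eq`), `P = J'.image fun i => (v i 0 / v i 2, v i 1 / v i 2)`.
The planar determinant of three such points is `det3 / (z₁ z₂ z₃)` (`field_simp; ring`), `0 < z < 2N`.  The map is injective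
on `J'`: otherwise a third index (`3 ≤ n`) gives `det3 = 0`. -/
theorem planar {ι : Type} (J : Finset ι) (v : ι → V3 ℤ) (N : ℤ) (hN : 0 < N) (T : ℝ) (hT : 0 < T)
    (hv : ∀ i, (0 ≤ v i 0 ∧ v i 0 < N) ∧ (0 ≤ v i 1 ∧ v i 1 < N) ∧ (N ≤ v i 2 ∧ v i 2 < 2 * N))
    (hdet : ∀ i ∈ J, ∀ j ∈ J, ∀ k ∈ J, i ≠ j → i ≠ k → j ≠ k →
      T ≤ |((det3 (v i) (v j) (v k) : ℤ) : ℝ)|)
    (n : ℕ) (hn : 3 ≤ n) (hJ : n ≤ J.card) :
    ∃ P : Finset (ℝ × ℝ), P.card = n ∧ (∀ a ∈ P, 0 ≤ a.1 ∧ a.1 ≤ 1 ∧ 0 ≤ a.2 ∧ a.2 ≤ 1) ∧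
      ∀ a ∈ P, ∀ b ∈ P, ∀ c ∈ P, a ≠ b → a ≠ c → b ≠ c →
        T / (16 * (N : ℝ) ^ 3) ≤ |(b.1 - a.1) * (c.2 - a.2) - (b.2 - a.2) * (c.1 - a.1)| / 2 := by
  classical
  obtain ⟨J', hJ', hc⟩ := Finset.exists_subset_card_eq hJ
  have hN' : (0 : ℝ) < N := by exact_mod_cast hN
  have hz : ∀ i, (N : ℝ) ≤ v i 2 ∧ (v i 2 : ℝ) ≤ 2 * N := fun i => by
    exact_mod_cast And.intro (hv i).2.2.1 (hv i).2.2.2.le
  have hz0 : ∀ i, (0 : ℝ) < v i 2 := fun i => hN'.trans_le (hz i).1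
  set f : ι → ℝ × ℝ := fun i => ((v i 0 : ℝ) / v i 2, (v i 1 : ℝ) / v i 2) with hf
  have key : ∀ i ∈ J', ∀ j ∈ J', ∀ k ∈ J', i ≠ j → i ≠ k → j ≠ k → T / (16 * (N : ℝ) ^ 3) ≤
      |((f j).1 - (f i).1) * ((f k).2 - (f i).2) - ((f j).2 - (f i).2) * ((f k).1 - (f i).1)| / 2 := by
    intro i hi j hj k hk hij hik hjk
    have h1 : ((f j).1 - (f i).1) * ((f k).2 - (f i).2) - ((f j).2 - (f i).2) * ((f k).1 - (f i).1) =
        ((det3 (v i) (v j) (v k) : ℤ) : ℝ) / (v i 2 * v j 2 * v k 2) := by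
      have := (hz0 i).ne'
      have := (hz0 j).ne'
      have := (hz0 k).ne'
      simp only [hf, det3_def]
      push_cast
      field_simp
      ring
    have h2 : (0 : ℝ) < v i 2 * v j 2 * v k 2 := mul_pos (mul_pos (hz0 i) (hz0 j)) (hz0 k)
    have h3 : (v i 2 * v j 2 * v k 2 : ℝ) ≤ 2 * N * (2 * N) * (2 * N) :=
      mul_le_mul (mul_le_mul (hz i).2 (hz j).2 (hz0 j).le (by positivity)) (hz k).2 (hz0 k).le
        (by positivity)
    rw [h1, abs_div, abs_of_pos h2, div_div]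
    exact div_le_div₀ (abs_nonneg _) (hdet i (hJ' hi) j (hJ' hj) k (hJ' hk) hij hik hjk)
      (by positivity) (by linarith)
  refine ⟨J'.image f, (Finset.card_image_of_injOn fun i hi j hj h => ?_).trans hc, ?_, ?_⟩
  · by_contra hij
    obtain ⟨k, hk, hk'⟩ := Finset.exists_mem_notMem_of_card_lt_card
      (s := ({i, j} : Finset ι)) (t := J') (Finset.card_le_two.trans_lt (by omega))
    simp only [Finset.mem_insert, Finset.mem_singleton, not_or] at hk'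
    have := key i hi j hj k hk hij (Ne.symm hk'.1) (Ne.symm hk'.2)
    rw [h, sub_self, sub_self, zero_mul, zero_mul, sub_self, abs_zero, zero_div] at this
    exact this.not_gt (by positivity)
  · simp only [Finset.forall_mem_image]
    intro i _
    have h0 : (0 : ℝ) ≤ v i 0 ∧ (v i 0 : ℝ) ≤ N := by
      exact_mod_cast And.intro (hv i).1.1 (hv i).1.2.le
    have h1 : (0 : ℝ) ≤ v i 1 ∧ (v i 1 : ℝ) ≤ N := by
      exact_mod_cast And.intro (hv i).2.1.1 (hv i).2.1.2.le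
    exact ⟨div_nonneg h0.1 (hz0 i).le, (div_le_one (hz0 i)).2 (h0.2.trans (hz i).1),
      div_nonneg h1.1 (hz0 i).le, (div_le_one (hz0 i)).2 (h1.2.trans (hz i).1)⟩
  · simp only [Finset.forall_mem_image]
    exact fun i hi j hj k hk hij hik hjk => key i hi j hj k hk (fun h => hij (h ▸ rfl))
      (fun h => hik (h ▸ rfl)) fun h => hjk (h ▸ rfl)

end Crest.R32
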