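import Crest.Agent.R32.Defs

/-! Row 32. Choice of the parameters. -/

set_option autoImplicit false

namespace Crest.R32

/-- `m = Nat.findGreatest (· ^ D ≤ n) n` (or `Nat.nthRoot`), Bertrand for `m / 2`; `n₀ = (2 p₀ + 2) ^ D`. -/
theorem exists_p (D p₀ : ℕ) (hD : 1 ≤ D) :
    ∃ n₀ : ℕ, ∀ n, n₀ ≤ n → ∃ p : ℕ, p.Prime ∧ p₀ ≤ p ∧ p ^ D ≤ n ∧ n < (2 * p) ^ D := by
  classical
  refine ⟨(2 * p₀ + 2) ^ D, fun n hn => ?_⟩
  have h1 : 2 * p₀ + 2 ≤ n := (Nat.le_self_pow (by omega) _).trans hn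
  have h2 : 2 * p₀ + 2 ≤ Nat.findGreatest (fun m => m ^ D ≤ n) n := Nat.le_findGreatest h1 hn
  have h3 : Nat.findGreatest (fun m => m ^ D ≤ n) n ^ D ≤ n :=
    Nat.findGreatest_spec (P := fun m => m ^ D ≤ n) h1 hn
  have h4 : n < (Nat.findGreatest (fun m => m ^ D ≤ n) n + 1) ^ D := by
    by_contra h
    have h5 := not_lt.1 h
    have h6 := (Nat.le_self_pow (show D ≠ 0 by omega) _).trans h5
    have := Nat.le_findGreatest (P := fun m => m ^ D ≤ n) h6 h5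
    omega
  generalize Nat.findGreatest (fun m => m ^ D ≤ n) n = m at h2 h3 h4
  obtain ⟨p, hp, hp1, hp2⟩ := Nat.exists_prime_lt_and_le_two_mul (m / 2) (by omega)
  exact ⟨p, hp, by omega, (Nat.pow_le_pow_left (by omega) D).trans h3,
    h4.trans_le (Nat.pow_le_pow_left (by omega) D)⟩

/-- Let `Λ₀ = 4 log₂ n + 8`, `W = 32 · 10¹³ Λ₀ n²`, `k` minimal with `W ≤ p² q² k³` (`k ≥ 2` since `p² q² ≤ n < W`), `l` a prime in
`(k, 2k]`, so `W ≤ p² q² l³ ≤ 64 W` (`l ≤ 4 (k-1)`), `m = 2n / (p² I) + 1`, so `2n ≤ p² I m ≤ 3n`.  `l³ ≤ 64 W ≤ n³` by `hn`, `q ≤ n`, so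
`lam (2ql) ≤ log₂ (8n⁴) + 1 ≤ Λ₀`.  `l⁶ (pq)⁴ ≥ W² ≥ 64 n⁴ ≥ 64 n³ (pq)⁴` gives `4n ≤ l²`; `q² ≤ n < l²`. -/
theorem exists_l {n p q I : ℕ} (hp : 1 ≤ p) (hI : 0 < I) (hIq : I ≤ q) (hpq : (p * q) ^ 4 ≤ n)
    (hn : 64 * (32 * 10 ^ 13 * (4 * Nat.log 2 n + 8)) ≤ n) :
    ∃ l m : ℕ, l.Prime ∧ l ≠ 2 ∧ q ≠ l ∧ 2 * n ≤ p ^ 2 * I * m ∧ p ^ 2 * I * m ≤ l ^ 2 ∧
      2 * 10 ^ 13 * lam (2 * (q * l)) * (p ^ 2 * I * m) ^ 2 ≤ p ^ 2 * q ^ 2 * l ^ 3 ∧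
      p ^ 2 * q ^ 2 * l ^ 3 ≤ 64 * (32 * 10 ^ 13 * (4 * Nat.log 2 n + 8)) * n ^ 2 := by
  obtain ⟨Λ, hΛ⟩ : ∃ Λ, Λ = 4 * Nat.log 2 n + 8 := ⟨_, rfl⟩
  rw [← hΛ] at hn ⊢
  obtain ⟨C, hC⟩ : ∃ C, C = 32 * 10 ^ 13 * Λ := ⟨_, rfl⟩
  rw [← hC] at hn ⊢
  obtain ⟨P, hP⟩ : ∃ P, P = p ^ 2 * q ^ 2 := ⟨_, rfl⟩
  rw [← hP]
  have hq : 1 ≤ q := le_trans hI hIq
  have hΛ8 : 8 ≤ Λ := by omega
  have hC8 : 8 ≤ C := by omega
  have hn1 : 1 ≤ n := by omega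
  have hP1 : 1 ≤ P := by
    rw [hP]; exact Nat.one_le_iff_ne_zero.2 (by positivity)
  have hP2 : P ^ 2 ≤ n := by
    calc P ^ 2 = (p * q) ^ 4 := by rw [hP]; ring
      _ ≤ n := hpq
  have hPn : P ≤ n := le_trans (Nat.le_self_pow (by norm_num) P) hP2
  have hp2 : 1 ≤ p ^ 2 := Nat.one_le_pow _ _ hp
  have hq2 : q ≤ q ^ 2 := Nat.le_self_pow (by norm_num) q
  have hq2P : q ^ 2 ≤ P := by rw [hP]; exact Nat.le_mul_of_pos_left _ hp2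
  have hJ : p ^ 2 * I ≤ n := by
    refine le_trans ?_ hPn
    rw [hP]; exact Nat.mul_le_mul_left _ (le_trans hIq hq2)
  have hJ0 : 0 < p ^ 2 * I := Nat.mul_pos hp2 hI
  obtain ⟨W, hW⟩ : ∃ W, W = C * n ^ 2 := ⟨_, rfl⟩
  have hnn : n ≤ n ^ 2 := Nat.le_self_pow (by norm_num) n
  have hW8 : 8 * n ^ 2 ≤ W := by rw [hW]; exact Nat.mul_le_mul_right _ hC8
  have hex : ∃ k, W ≤ P * k ^ 3 :=
    ⟨W, le_trans (Nat.le_self_pow (by norm_num) W) (Nat.le_mul_of_pos_left _ hP1)⟩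
  have hk1 : W ≤ P * (Nat.find hex) ^ 3 := Nat.find_spec hex
  have hk2 : ∀ j, j < Nat.find hex → P * j ^ 3 < W := fun j hj => not_le.1 (Nat.find_min hex hj)
  generalize Nat.find hex = k at hk1 hk2
  have hk : 2 ≤ k := by
    by_contra h
    have h1 : k ^ 3 ≤ 1 := by
      calc k ^ 3 ≤ 1 ^ 3 := Nat.pow_le_pow_left (by omega) 3
        _ = 1 := by norm_num
    have h2 : P * k ^ 3 ≤ P * 1 := Nat.mul_le_mul_left _ h1
    omega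
  obtain ⟨l, hl, hkl, hl2⟩ := Nat.exists_prime_lt_and_le_two_mul k (by omega)
  have hlow : W ≤ P * l ^ 3 :=
    le_trans hk1 (Nat.mul_le_mul_left _ (Nat.pow_le_pow_left hkl.le 3))
  have hup : P * l ^ 3 ≤ 64 * W := by
    have h1 := hk2 (k - 1) (by omega)
    have h2 : l ≤ 4 * (k - 1) := by omega
    calc P * l ^ 3 ≤ P * (4 * (k - 1)) ^ 3 := Nat.mul_le_mul_left _ (Nat.pow_le_pow_left h2 3)
      _ = 64 * (P * (k - 1) ^ 3) := by ring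
      _ ≤ 64 * W := Nat.mul_le_mul_left _ h1.le
  have h4n : 4 * n ≤ l ^ 2 := by
    have h1 : (8 * n ^ 2) ^ 2 ≤ (P * l ^ 3) ^ 2 := Nat.pow_le_pow_left (le_trans hW8 hlow) 2
    have h2 : (P * l ^ 3) ^ 2 ≤ n * (l ^ 2) ^ 3 := by
      calc (P * l ^ 3) ^ 2 = P ^ 2 * (l ^ 2) ^ 3 := by ring
        _ ≤ n * (l ^ 2) ^ 3 := Nat.mul_le_mul_right _ hP2
    have h3 : n * (4 * n) ^ 3 ≤ n * (l ^ 2) ^ 3 := by
      calc n * (4 * n) ^ 3 = (8 * n ^ 2) ^ 2 := by ring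
        _ ≤ _ := le_trans h1 h2
    have h4 : (4 * n) ^ 3 ≤ (l ^ 2) ^ 3 := Nat.le_of_mul_le_mul_left h3 hn1
    exact (Nat.pow_le_pow_iff_left (by norm_num)).1 h4
  have hln : l ≤ n := by
    have h1 : l ^ 3 ≤ n ^ 3 := by
      calc l ^ 3 ≤ P * l ^ 3 := Nat.le_mul_of_pos_left _ hP1
        _ ≤ 64 * W := hup
        _ = (64 * C) * n ^ 2 := by rw [hW]; ring
        _ ≤ n * n ^ 2 := Nat.mul_le_mul_right _ hn
        _ = n ^ 3 := by ring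
    exact (Nat.pow_le_pow_iff_left (by norm_num)).1 h1
  have hqn : q ≤ n := by omega
  have hlam : lam (2 * (q * l)) ≤ Λ := by
    have h1 : n < 2 ^ (Nat.log 2 n + 1) := Nat.lt_pow_succ_log_self (by norm_num) n
    have h2 : 2 * (2 * (q * l)) ^ 2 < 2 ^ (4 * Nat.log 2 n + 7) := by
      calc 2 * (2 * (q * l)) ^ 2 ≤ 2 * (2 * (n * n)) ^ 2 :=
            Nat.mul_le_mul_left _ (Nat.pow_le_pow_left
              (Nat.mul_le_mul_left _ (Nat.mul_le_mul hqn hln)) 2)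
        _ = 8 * n ^ 4 := by ring
        _ < 8 * (2 ^ (Nat.log 2 n + 1)) ^ 4 :=
            Nat.mul_lt_mul_of_pos_left (Nat.pow_lt_pow_left h1 (by norm_num)) (by norm_num)
        _ = 2 ^ (4 * Nat.log 2 n + 7) := by ring
    have h3 := Nat.log_lt_of_lt_pow' (b := 2) (by omega) h2
    unfold lam
    omega
  have hm1 : 2 * n ≤ p ^ 2 * I * (2 * n / (p ^ 2 * I) + 1) :=
    (Nat.lt_mul_div_succ (2 * n) hJ0).le
  have hm2 : p ^ 2 * I * (2 * n / (p ^ 2 * I) + 1) ≤ 3 * n := by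
    have h1 := Nat.mul_div_le (2 * n) (p ^ 2 * I)
    rw [Nat.mul_add, Nat.mul_one]
    omega
  refine ⟨l, 2 * n / (p ^ 2 * I) + 1, hl, by omega, ?_, hm1, by omega, ?_, ?_⟩
  · rintro rfl
    omega
  · calc 2 * 10 ^ 13 * lam (2 * (q * l)) * (p ^ 2 * I * (2 * n / (p ^ 2 * I) + 1)) ^ 2
        ≤ 2 * 10 ^ 13 * Λ * (3 * n) ^ 2 :=
          Nat.mul_le_mul (Nat.mul_le_mul_left _ hlam) (Nat.pow_le_pow_left hm2 2)
      _ = 18 * (10 ^ 13 * Λ * n ^ 2) := by ring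
      _ ≤ 32 * (10 ^ 13 * Λ * n ^ 2) := Nat.mul_le_mul_right _ (by norm_num)
      _ = W := by rw [hW, hC]; ring
      _ ≤ P * l ^ 3 := hlow
  · calc P * l ^ 3 ≤ 64 * W := hup
      _ = 64 * C * n ^ 2 := by rw [hW]; ring

/-- `log₂ n = o(n^η)`: `Nat.log 2 n ≤ Real.log n / Real.log 2` (`Nat.pow_log_le_self`), `Real.log_le_rpow_div` or
`isLittleO_log_rpow_atTop`. -/
theorem log_small (A η : ℝ) (hη : 0 < η) :
    ∃ n₀ : ℕ, ∀ n : ℕ, n₀ ≤ n → A * ((4 * Nat.log 2 n + 8 : ℕ) : ℝ) ≤ (n : ℝ) ^ η := by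
  have hA : 0 < 16 * (|A| + 1) := by positivity
  have h1 := (isLittleO_log_rpow_atTop hη).bound (inv_pos.2 hA)
  obtain ⟨n₀, hn₀⟩ := Filter.eventually_atTop.1
    ((tendsto_natCast_atTop_atTop (R := ℝ)).eventually h1)
  refine ⟨max n₀ 3, fun n hn => ?_⟩
  have h2 := hn₀ n ((le_max_left _ _).trans hn)
  have h3 : (3 : ℝ) ≤ n := by exact_mod_cast (le_max_right _ _).trans hn
  have hl : 1 ≤ Real.log n := by
    rw [Real.le_log_iff_exp_le (by linarith)]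
    exact (Real.exp_one_lt_d9.le.trans (by norm_num)).trans h3
  have h4 : (Nat.log 2 n : ℝ) * Real.log 2 ≤ Real.log n := by
    rw [← Real.log_pow]
    refine Real.log_le_log (by positivity) ?_
    exact_mod_cast Nat.pow_log_le_self 2 (show n ≠ 0 by
      have := (le_max_right _ _).trans hn
      omega)
  have h5 : (Nat.log 2 n : ℝ) ≤ 2 * Real.log n := by
    have := Real.log_two_gt_d9
    have h0 : (0 : ℝ) ≤ Nat.log 2 n := Nat.cast_nonneg _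
    nlinarith
  rw [Real.norm_of_nonneg (by linarith), Real.norm_of_nonneg (by positivity), ← div_eq_inv_mul,
    le_div_iff₀ hA] at h2
  have h6 : A ≤ |A| + 1 := (le_abs_self A).trans (by linarith)
  have h7 : (0 : ℝ) ≤ 4 * (Nat.log 2 n : ℝ) + 8 := by positivity
  push_cast
  calc A * (4 * (Nat.log 2 n : ℝ) + 8) ≤ (|A| + 1) * (4 * (Nat.log 2 n : ℝ) + 8) :=
        mul_le_mul_of_nonneg_right h6 h7
    _ ≤ (|A| + 1) * (16 * Real.log n) :=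
        mul_le_mul_of_nonneg_left (by linarith) (by positivity)
    _ ≤ _ := by linarith

end Crest.R32
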