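import Crest.Agent.R32.Defs

/-! Row 32. Lattice points of a plane in a box. -/

set_option autoImplicit false

namespace Crest.R32

open Finset Matrix

theorem plane_core {α : Type*} (S : Finset α) (x y : α → ℤ) (X D : ℕ) (hD0 : 0 < D)
    (hx : ∀ u ∈ S, (x u).natAbs ≤ X) (hy : ∀ u ∈ S, (y u).natAbs ≤ X) {u0 u1 : α} (h0 : u0 ∈ S)
    (h1 : u1 ∈ S) {ρ : ℕ} (hρ : 0 < ρ) (ha1 : (x u1 - x u0).natAbs = ρ)
    (ha2 : (y u1 - y u0).natAbs ≤ ρ)
    (hmin : ∀ u ∈ S, ∀ u' ∈ S, u ≠ u' → ρ ≤ (x u - x u').natAbs ∨ ρ ≤ (y u - y u').natAbs)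
    (hD : ∀ u ∈ S, (D : ℤ) ∣ (x u1 - x u0) * (y u - y u0) - (y u1 - y u0) * (x u - x u0))
    (hnc : ∃ u ∈ S, ∃ u' ∈ S, ∃ u'' ∈ S,
      (x u' - x u) * (y u'' - y u) - (y u' - y u) * (x u'' - x u) ≠ 0) :
    S.card * D ≤ 48 * X ^ 2 := by
  have hρX : ρ ≤ 2 * X := by
    have := hx u0 h0
    have := hx u1 h1
    omega
  generalize x u1 - x u0 = a at ha1 hD
  generalize y u1 - y u0 = b at ha2 hD
  choose! q hq using hD
  have hb : ∀ u ∈ S, D * (q u).natAbs ≤ 4 * ρ * X := fun u hu => by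
    have e := congrArg Int.natAbs (hq u hu)
    rw [Int.natAbs_mul, Int.natAbs_natCast] at e
    rw [← e]
    refine (Int.natAbs_sub_le _ _).trans ?_
    rw [Int.natAbs_mul, Int.natAbs_mul, ha1]
    have e1 : (y u - y u0).natAbs ≤ 2 * X := by
      have := hy u0 h0
      have := hy u hu
      omega
    have e2 : (x u - x u0).natAbs ≤ 2 * X := by
      have := hx u0 h0
      have := hx u hu
      omega
    have := Nat.add_le_add (Nat.mul_le_mul_left ρ e1) (Nat.mul_le_mul ha2 e2)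
    linarith
  have hDle : D ≤ 4 * ρ * X := by
    by_contra hlt
    have hq0 : ∀ u ∈ S, q u = 0 := fun u hu => by
      by_contra hne
      have : 1 ≤ (q u).natAbs := Int.natAbs_pos.2 hne
      have := hb u hu
      nlinarith
    obtain ⟨u, hu, u', hu', u'', hu'', hne⟩ := hnc
    have e1 := hq u hu
    have e2 := hq u' hu'
    have e3 := hq u'' hu''
    rw [hq0 _ hu] at e1
    rw [hq0 _ hu'] at e2
    rw [hq0 _ hu''] at e3
    have ha0 : a ≠ 0 := by omega
    refine hne (mul_left_cancel₀ ha0 ?_)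
    linear_combination (x u' - x u) * (e3 - e1) - (x u'' - x u) * (e2 - e1)
  obtain ⟨m, hm⟩ : ∃ m, m = 4 * ρ * X / D := ⟨_, rfl⟩
  obtain ⟨k, hk⟩ : ∃ k, k = 2 * X / ρ := ⟨_, rfl⟩
  have hm1 : 1 ≤ m := hm ▸ (Nat.le_div_iff_mul_le hD0).2 (by omega)
  have hk1 : 1 ≤ k := hk ▸ (Nat.le_div_iff_mul_le hρ).2 (by omega)
  have hm2 : m * D ≤ 4 * ρ * X := hm ▸ Nat.div_mul_le_self _ _
  have hk2 : k * ρ ≤ 2 * X := hk ▸ Nat.div_mul_le_self _ _
  have hρ' : (0 : ℤ) < ρ := by exact_mod_cast hρ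
  have hc : S.card ≤ (Finset.Icc (-(m : ℤ)) m ×ˢ Finset.Icc (0 : ℤ) k).card := by
    refine Finset.card_le_card_of_injOn (fun u => (q u, (x u + X) / ρ)) (fun u hu => ?_)
      fun u hu u' hu' h => ?_
    · have hu : u ∈ S := hu
      have e1 : (q u).natAbs ≤ m :=
        hm ▸ (Nat.le_div_iff_mul_le hD0).2 (by rw [mul_comm]; exact hb u hu)
      have e2 := hx u hu
      have e3 : (x u + X) / ρ ≤ k := by
        rw [hk]
        push_cast
        exact Int.ediv_le_ediv hρ' (by omega)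
      have e4 : 0 ≤ (x u + X) / ρ := Int.ediv_nonneg (by omega) hρ'.le
      simp only [Finset.coe_product, Finset.coe_Icc, Set.mem_prod, Set.mem_Icc]
      omega
    · have hu : u ∈ S := hu
      have hu' : u' ∈ S := hu'
      obtain ⟨e1, e2⟩ := Prod.mk.inj h
      have e3 : a * (y u - y u') = b * (x u - x u') := by
        linear_combination hq u hu - hq u' hu' + D * e1
      have e4 := congrArg Int.natAbs e3
      rw [Int.natAbs_mul, Int.natAbs_mul, ha1] at e4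
      have e5 : (y u - y u').natAbs ≤ (x u - x u').natAbs :=
        Nat.le_of_mul_le_mul_left (e4.le.trans (Nat.mul_le_mul_right _ ha2)) hρ
      have e6 : (x u - x u').natAbs < ρ := by
        have f1 := Int.mul_ediv_add_emod (x u + X) ρ
        have f2 := Int.mul_ediv_add_emod (x u' + X) ρ
        have f3 := Int.emod_lt_of_pos (x u + X) hρ'
        have f4 := Int.emod_lt_of_pos (x u' + X) hρ'
        have f5 := Int.emod_nonneg (x u + X) hρ'.ne'
        have f6 := Int.emod_nonneg (x u' + X) hρ'.ne'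
        rw [e2] at f1
        omega
      by_contra hne
      have := hmin u hu u' hu' hne
      omega
  have hc2 : (Finset.Icc (-(m : ℤ)) m ×ˢ Finset.Icc (0 : ℤ) k).card = (2 * m + 1) * (k + 1) := by
    rw [Finset.card_product, Int.card_Icc, Int.card_Icc]
    congr 1 <;> omega
  have hc3 : (2 * m + 1) * (k + 1) ≤ 3 * m * (2 * k) := Nat.mul_le_mul (by omega) (by omega)
  calc S.card * D ≤ 3 * m * (2 * k) * D := Nat.mul_le_mul_right _ (hc.trans (hc2.le.trans hc3))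
    _ = 6 * k * (m * D) := by ring
    _ ≤ 6 * k * (4 * ρ * X) := Nat.mul_le_mul_left _ hm2
    _ = 24 * X * (k * ρ) := by ring
    _ ≤ 24 * X * (2 * X) := Nat.mul_le_mul_left _ hk2
    _ = 48 * X ^ 2 := by ring

/-- Take a pair `u₀ ≠ u₁` in `S` with minimal sup distance `ρ` (`1 ≤ ρ ≤ 2X`), `a = u₁ - u₀`, say
`|a.1| = ρ ≥ |a.2|` (else swap the coordinates).  The map `u ↦ (ω(a, u - u₀) / D, (u.1 + X) / ρ)` is injective
on `S` (equal first entries: `u - u' ∥ a`, so `|(u-u').2| ≤ |(u-u').1| < ρ`, so `u = u'` by minimality).  The first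
entry lies in `[-4ρX/D, 4ρX/D]`, and `D ≤ 4ρX` because some `ω(a, u - u₀) ≠ 0` (otherwise every difference is parallel
to `a ≠ 0` and `hnc` fails); the second lies in `[0, 2X/ρ]`.
So `|S| ≤ (12ρX/D) (4X/ρ)`. -/
theorem plane2 (S : Finset (ℤ × ℤ)) (X D : ℕ)
    (hX : ∀ u ∈ S, u.1.natAbs ≤ X ∧ u.2.natAbs ≤ X)
    (hD : ∀ u ∈ S, ∀ u' ∈ S, ∀ u'' ∈ S,
      (D : ℤ) ∣ (u'.1 - u.1) * (u''.2 - u.2) - (u'.2 - u.2) * (u''.1 - u.1))
    (hnc : ∃ u ∈ S, ∃ u' ∈ S, ∃ u'' ∈ S,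
      (u'.1 - u.1) * (u''.2 - u.2) - (u'.2 - u.2) * (u''.1 - u.1) ≠ 0) :
    S.card * D ≤ 48 * X ^ 2 := by
  rcases Nat.eq_zero_or_pos D with rfl | hD0
  · simp
  have hne : S.offDiag.Nonempty := by
    obtain ⟨u, hu, u', hu', u'', -, hne⟩ := hnc
    refine ⟨(u, u'), Finset.mem_offDiag.2 ⟨hu, hu', ?_⟩⟩
    rintro (rfl : u = u')
    simp at hne
  obtain ⟨⟨u1, u0⟩, hp, hmin⟩ := Finset.exists_min_image S.offDiag
    (fun p => max (p.1.1 - p.2.1).natAbs (p.1.2 - p.2.2).natAbs) hne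
  obtain ⟨h1, h0, h10⟩ := Finset.mem_offDiag.1 hp
  dsimp only at h1 h0 h10 hmin
  have hmin' : ∀ u ∈ S, ∀ u' ∈ S, u ≠ u' → max (u1.1 - u0.1).natAbs (u1.2 - u0.2).natAbs ≤
      max (u.1 - u'.1).natAbs (u.2 - u'.2).natAbs := fun u hu u' hu' h =>
    hmin (u, u') (Finset.mem_offDiag.2 ⟨hu, hu', h⟩)
  have hpos : 0 < max (u1.1 - u0.1).natAbs (u1.2 - u0.2).natAbs := by
    by_contra h
    exact h10 (Prod.ext (by omega) (by omega))
  rcases le_total (u1.2 - u0.2).natAbs (u1.1 - u0.1).natAbs with h | h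
  · exact plane_core S Prod.fst Prod.snd X D hD0 (fun u hu => (hX u hu).1)
      (fun u hu => (hX u hu).2) h0 h1 (by omega) rfl h
      (fun u hu u' hu' hh => by have := hmin' u hu u' hu' hh; omega)
      (fun u hu => hD u0 h0 u1 h1 u hu) hnc
  · refine plane_core S Prod.snd Prod.fst X D hD0 (fun u hu => (hX u hu).2)
      (fun u hu => (hX u hu).1) h0 h1 (by omega) rfl h
      (fun u hu u' hu' hh => by have := hmin' u hu u' hu' hh; omega)
      (fun u hu => ?_) ?_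
    · rw [← dvd_neg, neg_sub]
      exact hD u0 h0 u1 h1 u hu
    · obtain ⟨u, hu, u', hu', u'', hu'', hne⟩ := hnc
      exact ⟨u, hu, u', hu', u'', hu'', fun h => hne (by linear_combination -h)⟩

end Crest.R32
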