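import Crest.Agent.R32.Plane

/-! Row 32. Lattice points of a plane in a box, in `ℤ³`; primitive vectors. -/

set_option autoImplicit false

namespace Crest.R32

open Finset Matrix

theorem plane3_le_nrm (u : V3 ℤ) (i : Fin 3) : (u i).natAbs ≤ nrm u := by
  have h : ∀ i : Fin 3, i = 0 ∨ i = 1 ∨ i = 2 := by decide
  unfold nrm
  rcases h i with rfl | rfl | rfl <;> omega

theorem plane3_aux (S : Finset (V3 ℤ)) (X D : ℕ) (κ : V3 ℤ) (hX : ∀ u ∈ S, u ∈ box X)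
    (hperp : ∀ u ∈ S, ∀ u' ∈ S, dt κ (u' - u) = 0)
    (hD : ∀ u ∈ S, ∀ u' ∈ S, ∀ u'' ∈ S, ∃ m : ℤ, cr (u' - u) (u'' - u) = ((D : ℤ) * m) • κ)
    (hnc : ∃ u ∈ S, ∃ u' ∈ S, ∃ u'' ∈ S, cr (u' - u) (u'' - u) ≠ 0) (j a b : Fin 3)
    (hj : (κ j).natAbs = nrm κ) (hcr : ∀ d d' : V3 ℤ, cr d d' j = d a * d' b - d b * d' a)
    (hdt : ∀ d : V3 ℤ, dt κ d = κ j * d j + κ a * d a + κ b * d b)
    (hall : ∀ i, i = j ∨ i = a ∨ i = b) : S.card * (D * nrm κ) ≤ 48 * X ^ 2 := by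
  obtain ⟨u, hu, u', hu', u'', hu'', hne⟩ := hnc
  obtain ⟨m, hm⟩ := hD u hu u' hu' u'' hu''
  have hκ : κ j ≠ 0 := fun h => hne (by
    have h0 : κ = 0 := funext fun i => by
      have := plane3_le_nrm κ i
      rw [← hj, h] at this
      exact Int.natAbs_eq_zero.1 (Nat.le_zero.1 this)
    rw [hm, h0, smul_zero])
  have hm0 : (D : ℤ) * m ≠ 0 := fun h => hne (by rw [hm, h, zero_smul])
  have hinj : Set.InjOn (fun v : V3 ℤ => (v a, v b)) S := fun v hv w hw h => by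
    obtain ⟨ha, hb⟩ := Prod.mk.inj h
    have h1 := hperp v hv w hw
    rw [hdt, Pi.sub_apply, Pi.sub_apply, Pi.sub_apply, ha, hb, sub_self, sub_self, mul_zero,
      mul_zero, add_zero, add_zero, mul_eq_zero, sub_eq_zero] at h1
    funext i
    rcases hall i with rfl | rfl | rfl
    exacts [(h1.resolve_left hκ).symm, ha, hb]
  rw [← Finset.card_image_of_injOn hinj]
  refine plane2 _ X _ ?_ ?_ ?_
  · simp only [Finset.forall_mem_image]
    exact fun v hv => ⟨(plane3_le_nrm v a).trans (mem_box.1 (hX v hv)),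
      (plane3_le_nrm v b).trans (mem_box.1 (hX v hv))⟩
  · simp only [Finset.forall_mem_image]
    intro v hv v' hv' v'' hv''
    obtain ⟨k, hk⟩ := hD v hv v' hv' v'' hv''
    have h1 := congrFun hk j
    simp only [hcr, Pi.sub_apply, Pi.smul_apply, smul_eq_mul] at h1
    rw [h1, ← hj, Nat.cast_mul]
    exact mul_dvd_mul (dvd_mul_right _ _) (Int.natAbs_dvd.2 dvd_rfl)
  · refine ⟨_, Finset.mem_image_of_mem _ hu, _, Finset.mem_image_of_mem _ hu', _,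
      Finset.mem_image_of_mem _ hu'', ?_⟩
    have h1 := congrFun hm j
    simp only [hcr, Pi.sub_apply, Pi.smul_apply, smul_eq_mul] at h1
    rw [h1]
    exact mul_ne_zero hm0 hκ

/-- Let `j` be a coordinate with `|κ j| = nrm κ` (`κ ≠ 0` by `hnc`, `hD`).  Dropping the coordinate `j` is injective
on `S` (by `hperp`), the planar determinant of the projections is (up to the order of the two remaining coordinates) the
`j`-th entry of the cross product, `D m κ j`.  Apply `plane2` with `D * nrm κ`. -/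
theorem plane3 (S : Finset (V3 ℤ)) (X D : ℕ) (κ : V3 ℤ) (hX : ∀ u ∈ S, u ∈ box X)
    (hperp : ∀ u ∈ S, ∀ u' ∈ S, dt κ (u' - u) = 0)
    (hD : ∀ u ∈ S, ∀ u' ∈ S, ∀ u'' ∈ S, ∃ m : ℤ, cr (u' - u) (u'' - u) = ((D : ℤ) * m) • κ)
    (hnc : ∃ u ∈ S, ∃ u' ∈ S, ∃ u'' ∈ S, cr (u' - u) (u'' - u) ≠ 0) :
    S.card * (D * nrm κ) ≤ 48 * X ^ 2 := by
  have h : (κ 0).natAbs = nrm κ ∨ (κ 1).natAbs = nrm κ ∨ (κ 2).natAbs = nrm κ := by
    unfold nrm
    omega
  rcases h with h | h | h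
  · exact plane3_aux S X D κ hX hperp hD hnc 0 1 2 h (fun _ _ => rfl) (fun _ => rfl) (by decide)
  · exact plane3_aux S X D κ hX hperp hD hnc 1 2 0 h (fun _ _ => rfl)
      (fun _ => by unfold dt; ring) (by decide)
  · exact plane3_aux S X D κ hX hperp hD hnc 2 0 1 h (fun _ _ => rfl)
      (fun _ => by unfold dt; ring) (by decide)

/-- `m = dt w (cr d d')` where `dt w κ = 1`; `linear_combination` in each coordinate. -/
theorem cr_eq_smul_of_prim {κ w d d' : V3 ℤ} (hw : dt w κ = 1) (hd : dt κ d = 0)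
    (hd' : dt κ d' = 0) : cr d d' = dt w (cr d d') • κ := by
  simp only [dt] at hw hd hd'
  refine v3_ext ?_ ?_ ?_ <;>
    simp only [cr, dt, Pi.smul_apply, smul_eq_mul, Matrix.cons_val_zero, Matrix.cons_val_one,
      Matrix.cons_val_two, Matrix.head_cons, Matrix.tail_cons]
  · linear_combination (-(d 1 * d' 2 - d 2 * d' 1)) * hw + (w 1 * d' 2 - w 2 * d' 1) * hd -
      (w 1 * d 2 - w 2 * d 1) * hd'
  · linear_combination (-(d 2 * d' 0 - d 0 * d' 2)) * hw + (w 2 * d' 0 - w 0 * d' 2) * hd -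
      (w 2 * d 0 - w 0 * d 2) * hd'
  · linear_combination (-(d 0 * d' 1 - d 1 * d' 0)) * hw + (w 0 * d' 1 - w 1 * d' 0) * hd -
      (w 0 * d 1 - w 1 * d 0) * hd'

/-- divide by the gcd of the three coordinates; Bezout twice (`Int.gcd_eq_gcd_ab`). -/
theorem exists_prim {ν : V3 ℤ} (hν : ν ≠ 0) :
    ∃ (κ : V3 ℤ) (d : ℤ), Prim κ ∧ d ≠ 0 ∧ ν = d • κ ∧ nrm κ ≤ nrm ν := by
  obtain ⟨g, hg⟩ : ∃ g : ℤ, g = Int.gcd (ν 1) (ν 2) := ⟨_, rfl⟩
  obtain ⟨d, hd⟩ : ∃ d : ℤ, d = Int.gcd (ν 0) g := ⟨_, rfl⟩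
  have hdg : d ∣ g := hd ▸ Int.gcd_dvd_right _ _
  have hall : ∀ i : Fin 3, i = 0 ∨ i = 1 ∨ i = 2 := by decide
  have hdv : ∀ i, d ∣ ν i := fun i => by
    rcases hall i with rfl | rfl | rfl
    exacts [hd ▸ Int.gcd_dvd_left _ _, hdg.trans (hg ▸ Int.gcd_dvd_left _ _),
      hdg.trans (hg ▸ Int.gcd_dvd_right _ _)]
  choose κ hκ using hdv
  have hd0 : d ≠ 0 := fun h => hν (funext fun i => by rw [hκ i, h, zero_mul, Pi.zero_apply])
  have hle : ∀ i, (κ i).natAbs ≤ (ν i).natAbs := fun i => by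
    rw [hκ i, Int.natAbs_mul]
    exact Nat.le_mul_of_pos_left _ (Int.natAbs_pos.2 hd0)
  refine ⟨κ, d, ⟨![Int.gcdA (ν 0) g, Int.gcdA (ν 1) (ν 2) * Int.gcdB (ν 0) g,
    Int.gcdB (ν 1) (ν 2) * Int.gcdB (ν 0) g], mul_left_cancel₀ hd0 ?_⟩, hd0, funext hκ,
    max_le_max (hle 0) (max_le_max (hle 1) (hle 2))⟩
  rw [Int.gcd_eq_gcd_ab] at hd hg
  simp only [dt, Matrix.cons_val_zero, Matrix.cons_val_one, Matrix.cons_val_two, Matrix.head_cons,
    Matrix.tail_cons]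
  linear_combination (-1) * hd - Int.gcdB (ν 0) g * hg - Int.gcdA (ν 0) g * hκ 0 -
    Int.gcdA (ν 1) (ν 2) * Int.gcdB (ν 0) g * hκ 1 - Int.gcdB (ν 1) (ν 2) * Int.gcdB (ν 0) g * hκ 2

theorem nrm_cr_le {X : ℕ} {u v : V3 ℤ} (hu : u ∈ box X) (hv : v ∈ box X) :
    nrm (cr u v) ≤ 2 * X ^ 2 := by
  have h : ∀ i j, (u i * v j).natAbs ≤ X ^ 2 := fun i j => by
    rw [Int.natAbs_mul, sq]
    exact Nat.mul_le_mul ((plane3_le_nrm u i).trans (mem_box.1 hu))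
      ((plane3_le_nrm v j).trans (mem_box.1 hv))
  have h' : ∀ i j, (u i * v j - u j * v i).natAbs ≤ 2 * X ^ 2 := fun i j =>
    (Int.natAbs_sub_le _ _).trans (by have := h i j; have := h j i; omega)
  exact max_le (h' 1 2) (max_le (h' 2 0) (h' 0 1))

theorem Prim.one_le_nrm {κ : V3 ℤ} (h : Prim κ) : 1 ≤ nrm κ := by
  obtain ⟨w, hw⟩ := h
  by_contra hlt
  have h0 : ∀ i, κ i = 0 := fun i => by
    have := plane3_le_nrm κ i
    omega
  simp [dt, h0] at hw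

theorem add_mem_box {X Y : ℕ} {u v : V3 ℤ} (hu : u ∈ box X) (hv : v ∈ box Y) :
    u + v ∈ box (X + Y) := by
  rw [mem_box] at hu hv ⊢
  have h : ∀ i, ((u + v) i).natAbs ≤ X + Y := fun i =>
    (Int.natAbs_add_le _ _).trans
      (Nat.add_le_add ((plane3_le_nrm u i).trans hu) ((plane3_le_nrm v i).trans hv))
  exact max_le (h 0) (max_le (h 1) (h 2))

end Crest.R32
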