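import Crest.Agent.R32.Count2
import Crest.Agent.R32.Count3
import Crest.Agent.R32.Grp
import Crest.Agent.R32.Fib

/-! Row 32. The number of samples for which a given triple is bad. -/

set_option autoImplicit false

namespace Crest.R32

open Finset Matrix

variable {q l : ℕ} [Fact q.Prime] [Fact l.Prime] (Λ : Lift q l) (p : ℕ) (b1 b2 b3 : V3 (ZMod q))
  (c1 c2 c3 : V3 (ZMod l))

/-- the bad integer triples that occur -/
def Lift.Vs : Finset (V3 ℤ × V3 ℤ × V3 ℤ) :=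
  (Λ.bad p b1 b2 b3 c1 c2 c3).image fun ω => (Λ.pt ω b1 c1, Λ.pt ω b2 c2, Λ.pt ω b3 c3)

variable {p b1 b2 b3 c1 c2 c3}

theorem Vs_spec (hc : cr (c2 - c1) (c3 - c1) ≠ 0) {V : V3 ℤ × V3 ℤ × V3 ℤ}
    (hV : V ∈ Λ.Vs p b1 b2 b3 c1 c2 c3) :
    V ∈ box3 (2 * (q * l)) ∧ cr (V.2.1 - V.1) (V.2.2 - V.1) ≠ 0 ∧
      4 * p * |det3 V.1 V.2.1 V.2.2| < q ∧
      ∃ g : M3 q, g.det = 1 ∧ red q V.1 = g *ᵥ b1 ∧ red q V.2.1 = g *ᵥ b2 ∧ red q V.2.2 = g *ᵥ b3 := by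
  simp only [Lift.Vs, mem_image] at hV
  obtain ⟨ω, hω, rfl⟩ := hV
  simp only [Lift.bad, mem_filter, Om, mem_product, SLs, GLs, mem_univ, true_and, and_true] at hω
  obtain ⟨⟨hg, hA⟩, hlt⟩ := hω
  refine ⟨?_, ?_, hlt, ω.1, hg, ?_, ?_, ?_⟩
  · rw [mem_box3]
    exact ⟨Λ.L_mem_box _ _, Λ.L_mem_box _ _, Λ.L_mem_box _ _⟩
  · intro h0
    have h1 := congrArg (red l) h0
    rw [red_cr, red_sub, red_sub, red_zero] at h1
    simp only [Lift.pt, Λ.redl] at h1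
    rw [add_sub_add_right_eq_sub, add_sub_add_right_eq_sub, ← Matrix.mulVec_sub,
      ← Matrix.mulVec_sub] at h1
    exact cr_mulVec_ne hA hc h1
  · simp only [Lift.pt, Λ.redq]
  · simp only [Lift.pt, Λ.redq]
  · simp only [Lift.pt, Λ.redq]

theorem bad_le (hc : cr (c2 - c1) (c3 - c1) ≠ 0) (G : ℕ)
    (hG : ∀ v1 v2 v3, ((SLs q).filter fun g => g *ᵥ b1 = v1 ∧ g *ᵥ b2 = v2 ∧ g *ᵥ b3 = v3).card ≤ G) :
    (Λ.bad p b1 b2 b3 c1 c2 c3).card ≤ G * l ^ 3 * (Λ.Vs p b1 b2 b3 c1 c2 c3).card := by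
  unfold Lift.Vs
  refine Finset.card_le_mul_card_image _ _ ?_
  intro V _
  have h1 := hG (red q V.1) (red q V.2.1) (red q V.2.2)
  have h2 := fibA hc (red l V.1) (red l V.2.1) (red l V.2.2)
  refine le_trans ?_ (Nat.mul_le_mul h1 h2)
  rw [← Finset.card_product]
  refine Finset.card_le_card ?_
  intro ω hω
  simp only [Lift.bad, mem_filter, Om, mem_product] at hω ⊢
  obtain ⟨⟨⟨hg, hA⟩, -⟩, rfl⟩ := hω
  refine ⟨⟨hg, ?_⟩, hA, ?_⟩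
  · simp only [Lift.pt, Λ.redq, and_self]
  · simp only [Lift.pt, Λ.redl, and_self]

theorem bad_II (hp : 1 ≤ p) (hc : cr (c2 - c1) (c3 - c1) ≠ 0) (hb : det3 b1 b2 b3 ≠ 0) :
    ((Λ.bad p b1 b2 b3 c1 c2 c3).card : ℝ)
      ≤ 10 ^ 9 * ((2 * (q * l) : ℕ) : ℝ) ^ 6 * lam (2 * (q * l)) * (l : ℝ) ^ 3 := by
  have h1 := bad_le Λ (p := p) hc 1 (fun v1 v2 v3 => fib0 hb v1 v2 v3)
  have hcong : ∀ V ∈ Λ.Vs p b1 b2 b3 c1 c2 c3,
      ((det3 V.1 V.2.1 V.2.2 : ℤ) : ZMod q) = det3 b1 b2 b3 := by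
    intro V hV
    obtain ⟨-, -, -, g, hg, e1, e2, e3⟩ := Vs_spec Λ hc hV
    rw [red_det3, e1, e2, e3, det3_mulVec, hg, one_mul]
  have hsmall : ∀ V ∈ Λ.Vs p b1 b2 b3 c1 c2 c3, 4 * |det3 V.1 V.2.1 V.2.2| < q := by
    intro V hV
    obtain ⟨-, -, h, -⟩ := Vs_spec Λ hc hV
    have hp' : (1 : ℤ) ≤ p := by exact_mod_cast hp
    have := abs_nonneg (det3 V.1 V.2.1 V.2.2)
    nlinarith
  have h2 : ((Λ.Vs p b1 b2 b3 c1 c2 c3).card : ℝ)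
      ≤ 10 ^ 9 * ((2 * (q * l) : ℕ) : ℝ) ^ 6 * lam (2 * (q * l)) := by
    rcases (Λ.Vs p b1 b2 b3 c1 c2 c3).eq_empty_or_nonempty with he | ⟨W, hW⟩
    · rw [he]; simp only [card_empty, Nat.cast_zero]; positivity
    · have ht : det3 W.1 W.2.1 W.2.2 ≠ 0 := by
        intro h0
        apply hb
        rw [← hcong W hW, h0, Int.cast_zero]
      refine le_trans ?_ (count_det_ne (2 * (q * l)) ht)
      refine Nat.cast_le.2 (Finset.card_le_card ?_)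
      intro V hV
      rw [mem_filter]
      refine ⟨(Vs_spec Λ hc hV).1, ?_⟩
      have hd : (q : ℤ) ∣ det3 V.1 V.2.1 V.2.2 - det3 W.1 W.2.1 W.2.2 := by
        rw [← ZMod.intCast_zmod_eq_zero_iff_dvd, Int.cast_sub, hcong V hV, hcong W hW, sub_self]
      have h3 := hsmall V hV
      have h4 := hsmall W hW
      have h5 : |det3 V.1 V.2.1 V.2.2 - det3 W.1 W.2.1 W.2.2| < q := by
        have := abs_sub (det3 V.1 V.2.1 V.2.2) (det3 W.1 W.2.1 W.2.2)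
        have := abs_nonneg (det3 V.1 V.2.1 V.2.2)
        have := abs_nonneg (det3 W.1 W.2.1 W.2.2)
        linarith
      exact sub_eq_zero.1 (Int.eq_zero_of_abs_lt_dvd hd h5)
  have h3 : ((Λ.bad p b1 b2 b3 c1 c2 c3).card : ℝ)
      ≤ (l : ℝ) ^ 3 * ((Λ.Vs p b1 b2 b3 c1 c2 c3).card : ℝ) := by
    rw [one_mul] at h1
    exact_mod_cast h1
  calc _ ≤ (l : ℝ) ^ 3 * ((Λ.Vs p b1 b2 b3 c1 c2 c3).card : ℝ) := h3
    _ ≤ (l : ℝ) ^ 3 * (10 ^ 9 * ((2 * (q * l) : ℕ) : ℝ) ^ 6 * lam (2 * (q * l))) := by gcongr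
    _ = _ := by ring

theorem Triple_det0 (hp : 1 ≤ p) (hc : cr (c2 - c1) (c3 - c1) ≠ 0) (hb : det3 b1 b2 b3 = 0)
    {V : V3 ℤ × V3 ℤ × V3 ℤ} (hV : V ∈ Λ.Vs p b1 b2 b3 c1 c2 c3) :
    det3 V.1 V.2.1 V.2.2 = 0 := by
  obtain ⟨-, -, h1, g, -, e1, e2, e3⟩ := Vs_spec Λ hc hV
  have h2 : ((det3 V.1 V.2.1 V.2.2 : ℤ) : ZMod q) = 0 := by
    rw [red_det3, e1, e2, e3, det3_mulVec, hb, mul_zero]
  rw [ZMod.intCast_zmod_eq_zero_iff_dvd] at h2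
  refine Int.eq_zero_of_abs_lt_dvd h2 ?_
  have h3 : (1 : ℤ) ≤ p := by exact_mod_cast hp
  nlinarith [abs_nonneg (det3 V.1 V.2.1 V.2.2)]

theorem Triple_rel (hc : cr (c2 - c1) (c3 - c1) ≠ 0) {V : V3 ℤ × V3 ℤ × V3 ℤ}
    (hV : V ∈ Λ.Vs p b1 b2 b3 c1 c2 c3) {κ : V3 ℤ}
    (hκ : κ 0 • V.1 + κ 1 • V.2.1 + κ 2 • V.2.2 = 0) :
    red q κ 0 • b1 + red q κ 1 • b2 + red q κ 2 • b3 = 0 := by
  obtain ⟨-, -, -, g, hg, e1, e2, e3⟩ := Vs_spec Λ hc hV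
  have h1 := congrArg (red q) hκ
  rw [red_add, red_add, red_smul, red_smul, red_smul, red_zero, e1, e2, e3] at h1
  refine mulVec_eq_zero_of_det (A := g) (by rw [hg]; exact one_ne_zero) ?_
  rw [Matrix.mulVec_add, Matrix.mulVec_add, Matrix.mulVec_smul, Matrix.mulVec_smul,
    Matrix.mulVec_smul]
  exact h1

/-- `count_det_zero` with `D = 1` and `K` the set of `card_ker` (at most `q` elements); `fib2` gives `G = q²`. -/
theorem bad_III (hp : 1 ≤ p) (hc : cr (c2 - c1) (c3 - c1) ≠ 0) (hb : det3 b1 b2 b3 = 0)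
    (hind : cr b1 b2 ≠ 0 ∨ cr b1 b3 ≠ 0 ∨ cr b2 b3 ≠ 0)
    (hs : ∀ κ : V3 (ZMod q), κ 0 • b1 + κ 1 • b2 + κ 2 • b3 = 0 → κ 0 + κ 1 + κ 2 = 0) :
    ((Λ.bad p b1 b2 b3 c1 c2 c3).card : ℝ)
      ≤ 10 ^ 9 * ((2 * (q * l) : ℕ) : ℝ) ^ 6 * lam (2 * (q * l)) * (l : ℝ) ^ 3 := by
  have hq : (0 : ℝ) < q := by exact_mod_cast (Fact.out : q.Prime).pos
  have h1 := bad_le Λ (p := p) (b1 := b1) (b2 := b2) (b3 := b3) hc (q ^ 2) fun v1 v2 v3 => by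
    rcases hind with h | h | h
    · exact le_trans (card_le_card fun g hg => mem_filter.2
        ⟨(mem_filter.1 hg).1, (mem_filter.1 hg).2.1, (mem_filter.1 hg).2.2.1⟩) (fib2 h v1 v2)
    · exact le_trans (card_le_card fun g hg => mem_filter.2
        ⟨(mem_filter.1 hg).1, (mem_filter.1 hg).2.1, (mem_filter.1 hg).2.2.2⟩) (fib2 h v1 v3)
    · exact le_trans (card_le_card fun g hg => mem_filter.2
        ⟨(mem_filter.1 hg).1, (mem_filter.1 hg).2.2.1, (mem_filter.1 hg).2.2.2⟩) (fib2 h v2 v3)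
  have h2 := count_det_zero (2 * (q * l)) q 1 one_pos
    (univ.filter fun κ : V3 (ZMod q) => κ 0 • b1 + κ 1 • b2 + κ 2 • b3 = 0)
    (fun κ hκ => hs κ (mem_filter.1 hκ).2) (Λ.Vs p b1 b2 b3 c1 c2 c3)
    (fun V hV => (Vs_spec Λ hc hV).1) (fun V hV => (Vs_spec Λ hc hV).2.1)
    (fun V hV => Triple_det0 Λ hp hc hb hV)
    (fun V hV κ hκ => mem_filter.2 ⟨mem_univ _, Triple_rel Λ hc hV hκ⟩)
    (fun V _ i => ⟨by simp, by simp⟩)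
  have h3 : ((univ.filter fun κ : V3 (ZMod q) => κ 0 • b1 + κ 1 • b2 + κ 2 • b3 = 0).card : ℝ)
      ≤ q := by exact_mod_cast card_ker hind
  have h4 : ((Λ.bad p b1 b2 b3 c1 c2 c3).card : ℝ) ≤
      (q : ℝ) ^ 2 * (l : ℝ) ^ 3 * (Λ.Vs p b1 b2 b3 c1 c2 c3).card := by exact_mod_cast h1
  generalize (10 : ℝ) ^ 9 * ((2 * (q * l) : ℕ) : ℝ) ^ 6 * lam (2 * (q * l)) = A at h2 ⊢
  have hA : 0 ≤ A * ((univ.filter fun κ : V3 (ZMod q) =>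
      κ 0 • b1 + κ 1 • b2 + κ 2 • b3 = 0).card : ℝ) := by
    have := (Nat.cast_nonneg _).trans h2
    rwa [le_div_iff₀ (by positivity), zero_mul] at this
  have hK : (0 : ℝ) < (univ.filter fun κ : V3 (ZMod q) =>
      κ 0 • b1 + κ 1 • b2 + κ 2 • b3 = 0).card := by
    exact_mod_cast card_pos.2 ⟨0, by simp⟩
  have hA' : 0 ≤ A := nonneg_of_mul_nonneg_left hA hK
  calc _ ≤ _ := h4
    _ ≤ (q : ℝ) ^ 2 * (l : ℝ) ^ 3 * (A * q / ((q : ℝ) ^ 3 * ((1 : ℕ) : ℝ) ^ 3)) := by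
        gcongr
        refine h2.trans ?_
        gcongr
    _ = A * (l : ℝ) ^ 3 := by
        push_cast
        field_simp

/-- `count_det_zero` with `D = q` and `K` the set of `card_sum0` (at most `q²` elements); `fib1` gives `G = q⁵`. -/
theorem bad_IV (hp : 1 ≤ p) (hc : cr (c2 - c1) (c3 - c1) ≠ 0) (hb : b1 ≠ 0) :
    ((Λ.bad p b1 b1 b1 c1 c2 c3).card : ℝ)
      ≤ 10 ^ 9 * ((2 * (q * l) : ℕ) : ℝ) ^ 6 * lam (2 * (q * l)) * (l : ℝ) ^ 3 * q := by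
  have hq : (0 : ℝ) < q := by exact_mod_cast (Fact.out : q.Prime).pos
  have h1 := bad_le Λ (p := p) (b1 := b1) (b2 := b1) (b3 := b1) hc (q ^ 5) fun v1 v2 v3 =>
    le_trans (card_le_card fun g hg => mem_filter.2
      ⟨(mem_filter.1 hg).1, (mem_filter.1 hg).2.1⟩) (fib1 hb v1)
  have h2 := count_det_zero (2 * (q * l)) q q (Fact.out : q.Prime).pos
    (univ.filter fun κ : V3 (ZMod q) => κ 0 + κ 1 + κ 2 = 0)
    (fun κ hκ => (mem_filter.1 hκ).2) (Λ.Vs p b1 b1 b1 c1 c2 c3)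
    (fun V hV => (Vs_spec Λ hc hV).1) (fun V hV => (Vs_spec Λ hc hV).2.1)
    (fun V hV => Triple_det0 Λ hp hc (by rw [det3_def]; ring) hV)
    (fun V hV κ hκ => mem_filter.2 ⟨mem_univ _, by
      have h := Triple_rel Λ hc hV hκ
      rw [← add_smul, ← add_smul] at h
      exact (smul_eq_zero.1 h).resolve_right hb⟩)
    (fun V hV i => by
      obtain ⟨-, -, -, g, -, e1, e2, e3⟩ := Vs_spec Λ hc hV
      constructor
      · rw [← ZMod.intCast_eq_intCast_iff_dvd_sub]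
        exact congrFun (e1.trans e2.symm) i
      · rw [← ZMod.intCast_eq_intCast_iff_dvd_sub]
        exact congrFun (e1.trans e3.symm) i)
  have h3 : ((univ.filter fun κ : V3 (ZMod q) => κ 0 + κ 1 + κ 2 = 0).card : ℝ)
      ≤ (q : ℝ) ^ 2 := by exact_mod_cast card_sum0
  have h4 : ((Λ.bad p b1 b1 b1 c1 c2 c3).card : ℝ) ≤
      (q : ℝ) ^ 5 * (l : ℝ) ^ 3 * (Λ.Vs p b1 b1 b1 c1 c2 c3).card := by exact_mod_cast h1
  have hA' : (0 : ℝ) ≤ 10 ^ 9 * ((2 * (q * l) : ℕ) : ℝ) ^ 6 * lam (2 * (q * l)) := by positivity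
  generalize (10 : ℝ) ^ 9 * ((2 * (q * l) : ℕ) : ℝ) ^ 6 * lam (2 * (q * l)) = A at h2 hA' ⊢
  calc _ ≤ _ := h4
    _ ≤ (q : ℝ) ^ 5 * (l : ℝ) ^ 3 * (A * (q : ℝ) ^ 2 / ((q : ℝ) ^ 3 * (q : ℝ) ^ 3)) := by
        gcongr
        refine h2.trans ?_
        gcongr
    _ = A * (l : ℝ) ^ 3 * q := by
        field_simp

/-- Distinct classes: the set is empty (`Gadget.far`, `Vs_spec` or directly).  Otherwise `bad_II`, `bad_III`, `bad_IV` and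
`card_Om`: `10⁹ · 64 q⁶ l⁹ ≤ 1024 · 10⁹ |Ω| / (q² l³)`. -/
theorem bad_gadget {I : ℕ} (Γ : Gadget p q I) (hp : 1 ≤ p) (hc : cr (c2 - c1) (c3 - c1) ≠ 0)
    (l1 l2 l3 : (ZMod p × ZMod p) × Fin I) :
    ((Λ.bad p (Γ.β l1) (Γ.β l2) (Γ.β l3) c1 c2 c3).card : ℝ)
      ≤ (Om q l).card * (2 * 10 ^ 12 * lam (2 * (q * l)) / ((q : ℝ) ^ 2 * (l : ℝ) ^ 3)) *
        ((if l1.1 = l2.1 ∨ l1.1 = l3.1 ∨ l2.1 = l3.1 then 1 else 0)
          + (if l1 = l2 ∧ l1 = l3 then (q : ℝ) else 0)) := by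
  have hq : (0 : ℝ) < q := by exact_mod_cast (Fact.out : q.Prime).pos
  have hl : (0 : ℝ) < l := by exact_mod_cast (Fact.out : l.Prime).pos
  have hB : (10 : ℝ) ^ 9 * ((2 * (q * l) : ℕ) : ℝ) ^ 6 * lam (2 * (q * l)) * (l : ℝ) ^ 3 ≤
      (Om q l).card * (2 * 10 ^ 12 * lam (2 * (q * l)) / ((q : ℝ) ^ 2 * (l : ℝ) ^ 3)) := by
    have h1 : (q : ℝ) ^ 8 * (l : ℝ) ^ 12 ≤ 16 * (Om q l).card := by
      exact_mod_cast card_Om (q := q) l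
    have h2 : (0 : ℝ) ≤ lam (2 * (q * l)) := Nat.cast_nonneg _
    rw [← mul_div_assoc, le_div_iff₀ (by positivity)]
    push_cast
    have h3 : (0 : ℝ) ≤ (Om q l).card := Nat.cast_nonneg _
    calc _ = 64 * 10 ^ 9 * lam (2 * (q * l)) * ((q : ℝ) ^ 8 * (l : ℝ) ^ 12) := by ring
      _ ≤ 64 * 10 ^ 9 * lam (2 * (q * l)) * (16 * (Om q l).card) := by gcongr
      _ ≤ _ := by nlinarith [mul_nonneg h2 h3]
  have hC : (0 : ℝ) ≤
      (Om q l).card * (2 * 10 ^ 12 * lam (2 * (q * l)) / ((q : ℝ) ^ 2 * (l : ℝ) ^ 3)) := by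
    positivity
  generalize ((Om q l).card : ℝ) *
    (2 * 10 ^ 12 * lam (2 * (q * l)) / ((q : ℝ) ^ 2 * (l : ℝ) ^ 3)) = Cc at hB hC ⊢
  by_cases h : l1.1 = l2.1 ∨ l1.1 = l3.1 ∨ l2.1 = l3.1
  · rw [if_pos h]
    by_cases h' : l1 = l2 ∧ l1 = l3
    · rw [if_pos h']
      obtain ⟨rfl, rfl⟩ := h'
      refine (bad_IV Λ hp hc (Γ.ne l1)).trans ?_
      nlinarith [mul_le_mul_of_nonneg_right hB hq.le]
    · rw [if_neg h', add_zero, mul_one]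
      by_cases hb : det3 (Γ.β l1) (Γ.β l2) (Γ.β l3) = 0
      · refine (bad_III Λ hp hc hb ?_ (Γ.sum0 l1 l2 l3 h)).trans hB
        by_cases h12 : l1 = l2
        · exact Or.inr (Or.inl (Γ.ind _ _ fun h13 => h' ⟨h12, h13⟩))
        · exact Or.inl (Γ.ind _ _ h12)
      · exact (bad_II Λ hp hc hb).trans hB
  · have he : Λ.bad p (Γ.β l1) (Γ.β l2) (Γ.β l3) c1 c2 c3 = ∅ := by
      refine eq_empty_of_forall_notMem fun ω hω => ?_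
      obtain ⟨-, -, h1, g, hg, e1, e2, e3⟩ := Vs_spec Λ hc (mem_image_of_mem _ hω)
      push Not at h
      refine absurd (Γ.far l1 l2 l3 h.1 h.2.1 h.2.2 _ ?_) (not_le.2 h1)
      rw [red_det3, e1, e2, e3, det3_mulVec, hg, one_mul]
    rw [he, card_empty, Nat.cast_zero]
    refine mul_nonneg hC (add_nonneg ?_ ?_) <;> split_ifs <;> positivity

end Crest.R32
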